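import Mathlib

/-!
# P113: the energy method on `𝕋^d` (uniqueness, Poincaré inequality, global stability)
-/

open MeasureTheory Set Filter Topology

namespace Vale.Agent.N113P.En

variable {d : ℕ}

/-- The flat torus. -/
abbrev TT (d : ℕ) := Fin d → UnitAddCircle

/-- The translation by `s` in the direction `i`. -/
noncomputable def sh (i : Fin d) (s : ℝ) : TT d := Pi.single i (s : UnitAddCircle)

/-- `g'` is the partial derivative of `g` in the direction `i`, at every point. -/
def IsPD (i : Fin d) (g g' : TT d → ℝ) : Prop :=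
  ∀ x, HasDerivAt (fun s : ℝ => g (x + sh i s)) (g' x) 0

lemma sh_add (i : Fin d) (a b : ℝ) : (sh i (a + b) : TT d) = sh i a + sh i b := by
  unfold sh
  rw [← Pi.single_add]
  rfl

lemma sh_zero (i : Fin d) : (sh i 0 : TT d) = 0 := by simp [sh]

lemma IsPD.hasDerivAt {i : Fin d} {g g' : TT d → ℝ} (h : IsPD i g g') (x : TT d) (s₀ : ℝ) :
    HasDerivAt (fun s : ℝ => g (x + sh i s)) (g' (x + sh i s₀)) s₀ := by
  have h1 := h (x + sh i s₀)
  have h2 : HasDerivAt (fun s : ℝ => s - s₀) 1 s₀ := (hasDerivAt_id s₀).sub_const s₀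
  have h3 := HasDerivAt.comp_of_eq s₀ h1 h2 (by simp)
  simp only [mul_one] at h3
  refine h3.congr_of_eventuallyEq (Eventually.of_forall fun s => ?_)
  simp only [Function.comp]
  rw [add_assoc, ← sh_add]
  congr 4
  ring

lemma IsPD.add {i : Fin d} {g g' h h' : TT d → ℝ} (hg : IsPD i g g') (hh : IsPD i h h') :
    IsPD i (fun x => g x + h x) (fun x => g' x + h' x) := fun x => (hg x).add (hh x)

lemma IsPD.sub {i : Fin d} {g g' h h' : TT d → ℝ} (hg : IsPD i g g') (hh : IsPD i h h') :
    IsPD i (fun x => g x - h x) (fun x => g' x - h' x) := fun x => (hg x).sub (hh x)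

lemma IsPD.mul {i : Fin d} {g g' h h' : TT d → ℝ} (hg : IsPD i g g') (hh : IsPD i h h') :
    IsPD i (fun x => g x * h x) (fun x => g' x * h x + g x * h' x) := fun x => by
  have := (hg x).fun_mul (hh x)
  simpa only [sh_zero, add_zero] using this

lemma IsPD.const_mul {i : Fin d} {g g' : TT d → ℝ} (c : ℝ) (hg : IsPD i g g') :
    IsPD i (fun x => c * g x) (fun x => c * g' x) := fun x => (hg x).const_mul c

lemma IsPD.sum {i : Fin d} {g g' : Fin d → TT d → ℝ} (hg : ∀ k, IsPD i (g k) (g' k)) :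
    IsPD i (fun x => ∑ k, g k x) (fun x => ∑ k, g' k x) := fun x =>
  HasDerivAt.fun_sum fun k _ => hg k x

lemma IsPD.unique {i : Fin d} {g g' g'' : TT d → ℝ} (h1 : IsPD i g g') (h2 : IsPD i g g'') :
    g' = g'' := funext fun x => (h1 x).unique (h2 x)

lemma integ {g : TT d → ℝ} (hg : Continuous g) : Integrable g :=
  hg.integrable_of_hasCompactSupport (HasCompactSupport.of_compactSpace g)

instance : IsProbabilityMeasure (volume : Measure UnitAddCircle) := ⟨by simp⟩

@[fun_prop] lemma cont_sh (i : Fin d) : Continuous fun s : ℝ => (sh i s : TT d) :=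
  (continuous_single i).comp QuotientAddGroup.continuous_mk

lemma cont_slice {a b : ℝ} {g : ℝ × TT d → ℝ} (hg : ContinuousOn g (Icc a b ×ˢ univ)) {t : ℝ}
    (ht : t ∈ Icc a b) : Continuous fun x => g (t, x) :=
  hg.comp_continuous (Continuous.prodMk_right t) fun x => ⟨ht, mem_univ x⟩

lemma bound_of_contOn {a b : ℝ} {g : ℝ × TT d → ℝ} (hg : ContinuousOn g (Icc a b ×ˢ univ)) :
    ∃ C, ∀ t ∈ Icc a b, ∀ x, |g (t, x)| ≤ C := by
  obtain ⟨C, hC⟩ := (isCompact_Icc.prod isCompact_univ).exists_bound_of_continuousOn hg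
  exact ⟨C, fun t ht x => hC (t, x) ⟨ht, mem_univ x⟩⟩

lemma contOn_integral {a b : ℝ} {g : ℝ × TT d → ℝ} (hg : ContinuousOn g (Icc a b ×ˢ univ)) :
    ContinuousOn (fun t => ∫ x, g (t, x)) (Icc a b) := by
  rw [continuousOn_iff_continuous_domRestrict]
  have h1 : Continuous (Function.uncurry fun (t : Icc a b) (x : TT d) => g (t.1, x)) :=
    hg.comp_continuous (by fun_prop) fun z => ⟨z.1.2, mem_univ _⟩
  have h2 := continuous_parametric_integral_of_continuous (μ := (volume : Measure (TT d))) h1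
    isCompact_univ
  simp only [Measure.restrict_univ] at h2
  exact h2

lemma hasDerivAt_integral {a b : ℝ} {g g' : ℝ × TT d → ℝ} (hg : ContinuousOn g (Icc a b ×ˢ univ))
    (hg' : ContinuousOn g' (Icc a b ×ˢ univ))
    (hd : ∀ t ∈ Icc a b, ∀ x, HasDerivWithinAt (fun s => g (s, x)) (g' (t, x)) (Icc a b) t)
    {t : ℝ} (ht : t ∈ Ioo a b) :
    HasDerivAt (fun s => ∫ x, g (s, x)) (∫ x, g' (t, x)) t := by
  obtain ⟨C, hC⟩ := bound_of_contOn hg'
  have hn : Ioo a b ∈ 𝓝 t := isOpen_Ioo.mem_nhds ht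
  exact (hasDerivAt_integral_of_dominated_loc_of_deriv_le (μ := (volume : Measure (TT d)))
    (F := fun s x => g (s, x)) (F' := fun s x => g' (s, x)) (x₀ := t) (s := Ioo a b)
    (bound := fun _ => C) hn
    (Filter.mem_of_superset hn fun s hs =>
      (cont_slice hg (Ioo_subset_Icc_self hs)).aestronglyMeasurable)
    (integ (cont_slice hg (Ioo_subset_Icc_self ht)))
    (cont_slice hg' (Ioo_subset_Icc_self ht)).aestronglyMeasurable
    (Eventually.of_forall fun x s hs => hC s (Ioo_subset_Icc_self hs) x) (integrable_const C)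
    (Eventually.of_forall fun x s hs =>
      (hd s (Ioo_subset_Icc_self hs) x).hasDerivAt (Icc_mem_nhds hs.1 hs.2))).2

/-- Gronwall's inequality for integrals over the torus. -/
lemma gronwall {b K c : ℝ} {g g' : ℝ × TT d → ℝ} (hg : ContinuousOn g (Icc 0 b ×ˢ univ))
    (hg' : ContinuousOn g' (Icc 0 b ×ˢ univ))
    (hd : ∀ t ∈ Icc 0 b, ∀ x, HasDerivWithinAt (fun s => g (s, x)) (g' (t, x)) (Icc 0 b) t)
    (hK : ∀ s ∈ Icc 0 b, ∫ x, g' (s, x) ≤ K * ((∫ x, g (s, x)) + c)) {t : ℝ} (ht : t ∈ Icc 0 b) :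
    (∫ x, g (t, x)) + c ≤ Real.exp (K * t) * ((∫ x, g (0, x)) + c) := by
  set F : ℝ → ℝ := fun s => (∫ x, g (s, x)) + c with hF
  have cF : ContinuousOn F (Icc 0 b) := (contOn_integral hg).add continuousOn_const
  have dφ : ∀ s ∈ Ioo 0 b, HasDerivAt (fun s => F s * Real.exp (-K * s))
      ((∫ x, g' (s, x)) * Real.exp (-K * s) + F s * (Real.exp (-K * s) * (-K))) s := by
    intro s hs
    have h1 : HasDerivAt (fun s => -K * s) (-K) s := by
      simpa using (hasDerivAt_id s).const_mul (-K)
    exact ((hasDerivAt_integral hg hg' hd hs).add_const c).fun_mul h1.exp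
  have anti : AntitoneOn (fun s => F s * Real.exp (-K * s)) (Icc 0 b) := by
    refine antitoneOn_of_deriv_nonpos (convex_Icc 0 b) (cF.mul (by fun_prop)) ?_ ?_
    · rw [interior_Icc]
      exact fun s hs => (dφ s hs).differentiableAt.differentiableWithinAt
    · rw [interior_Icc]
      intro s hs
      rw [(dφ s hs).deriv]
      have := hK s (Ioo_subset_Icc_self hs)
      nlinarith [Real.exp_pos (-K * s)]
  have hle := anti ⟨le_rfl, ht.1.trans ht.2⟩ ht ht.1
  simp only [mul_zero, Real.exp_zero, mul_one] at hle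
  have e : Real.exp (K * t) * Real.exp (-K * t) = 1 := by rw [← Real.exp_add]; simp
  calc F t = Real.exp (K * t) * (F t * Real.exp (-K * t)) := by
        rw [mul_left_comm, e, mul_one]
    _ ≤ _ := mul_le_mul_of_nonneg_left hle (Real.exp_pos _).le

/-- Integration by parts on the torus: the mean of a partial derivative vanishes. -/
lemma IsPD.integral_eq_zero {i : Fin d} {g g' : TT d → ℝ} (h : IsPD i g g') (hg : Continuous g)
    (hg' : Continuous g') : ∫ x, g' x = 0 := by
  have key := hasDerivAt_integral (a := -1) (b := 1) (g := fun z => g (z.2 + sh i z.1))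
    (g' := fun z => g' (z.2 + sh i z.1)) (Continuous.continuousOn (by fun_prop))
    (Continuous.continuousOn (by fun_prop))
    (fun t _ x => (h.hasDerivAt x t).hasDerivWithinAt) (t := 0) (by norm_num)
  simp only [integral_add_right_eq_self] at key
  exact key.unique (hasDerivAt_const _ _)

/-- A function all of whose partial derivatives vanish is constant. -/
lemma const_of_pd_zero {g : TT d → ℝ} (h : ∀ i, IsPD i g (fun _ => 0)) (x : TT d) : g x = g 0 := by
  have h2 : ∀ i (y : TT d) (a : UnitAddCircle), g (y + Pi.single i a) = g y := by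
    intro i y a
    obtain ⟨s, rfl⟩ := QuotientAddGroup.mk_surjective a
    have hd : ∀ s₀ : ℝ, HasDerivAt (fun s : ℝ => g (y + sh i s)) 0 s₀ :=
      fun s₀ => (h i).hasDerivAt y s₀
    have := is_const_of_deriv_eq_zero (fun s₀ => (hd s₀).differentiableAt)
      (fun s₀ => (hd s₀).deriv) s 0
    rw [sh_zero, add_zero] at this
    exact this
  have h3 : ∀ S : Finset (Fin d), g (∑ i ∈ S, Pi.single i (x i)) = g 0 := by
    intro S
    induction S using Finset.induction_on with
    | empty => simp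
    | insert i S hi ih => rw [Finset.sum_insert hi, add_comm, h2, ih]
  rw [← h3 Finset.univ, Finset.univ_sum_single]

/-! ## The Poincaré inequality on `𝕋³` -/

lemma shift_le {i : Fin d} {g g' : TT d → ℝ} (h : IsPD i g g') (hg : Continuous g)
    (hg' : Continuous g') (a : UnitAddCircle) :
    ∫ x, (g (x + Pi.single i a) - g x) ^ 2 ≤ 2 / 3 * ∫ x, g' x ^ 2 := by
  have key : ∀ s ∈ Icc (0 : ℝ) (1 / 2), ∫ x, (g (x + sh i s) - g x) ^ 2 ≤ 2 / 3 * ∫ x, g' x ^ 2 := by
    intro s hs
    have h1 := gronwall (b := 1 / 2) (K := 1) (c := ∫ x, g' x ^ 2)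
      (g := fun z => (g (z.2 + sh i z.1) - g z.2) ^ 2)
      (g' := fun z => 2 * (g (z.2 + sh i z.1) - g z.2) * g' (z.2 + sh i z.1))
      (Continuous.continuousOn (by fun_prop))
      (Continuous.continuousOn (by fun_prop)) (fun t _ x => ((((h.hasDerivAt x t).sub_const (g x)).fun_pow 2).congr_deriv
        (by simp)).hasDerivWithinAt) (fun t _ => ?_) hs
    · simp only [sh_zero, add_zero, sub_self, ne_eq, OfNat.ofNat_ne_zero, not_false_eq_true,
        zero_pow, integral_zero, zero_add, one_mul] at h1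
      have e1 : Real.exp s ≤ 5 / 3 := by
        have e2 : Real.exp (1 / 2) * Real.exp (1 / 2) < 2.7182818286 := by
          rw [← Real.exp_add, add_halves]; exact Real.exp_one_lt_d9
        have e3 := Real.exp_le_exp.2 hs.2
        nlinarith [Real.exp_pos (1 / 2)]
      have e4 : 0 ≤ ∫ x, g' x ^ 2 := integral_nonneg fun _ => sq_nonneg _
      nlinarith
    · dsimp only
      rw [one_mul, ← integral_add_right_eq_self (fun x => g' x ^ 2) (sh i t),
        ← integral_add (integ (by fun_prop)) (integ (by fun_prop))]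
      refine integral_mono (integ (by fun_prop)) (integ (by fun_prop)) fun x => ?_
      dsimp only
      nlinarith [sq_nonneg (g (x + sh i t) - g x - g' (x + sh i t))]
  obtain ⟨⟨s, hs⟩, rfl⟩ := (AddCircle.equivIco 1 (-(1 / 2))).symm.surjective a
  show ∫ x, (g (x + sh i s) - g x) ^ 2 ≤ _
  rcases le_total 0 s with h0 | h0
  · exact key s ⟨h0, by linarith [hs.2]⟩
  · rw [← integral_add_right_eq_self _ (sh i (-s))]
    refine le_of_eq_of_le (integral_congr_ae (Eventually.of_forall fun x => ?_))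
      (key (-s) ⟨by linarith, by linarith [hs.1]⟩)
    dsimp only
    rw [add_assoc, ← sh_add, neg_add_cancel, sh_zero, add_zero]
    ring

theorem poincare {g : TT 3 → ℝ} {g' : Fin 3 → TT 3 → ℝ} (h : ∀ i, IsPD i g (g' i))
    (hg : Continuous g) (hg' : ∀ i, Continuous (g' i)) (h0 : ∫ x, g x = 0) :
    ∫ x, g x ^ 2 ≤ ∑ i, ∫ x, g' i x ^ 2 := by
  have key : ∀ y : TT 3, 2 * (∫ x, g x ^ 2) - 2 * ∫ x, g (x + y) * g x
      ≤ 2 * ∑ i, ∫ x, g' i x ^ 2 := by
    intro y
    set a : TT 3 := Pi.single 0 (y 0)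
    set b : TT 3 := Pi.single 1 (y 1)
    set c : TT 3 := Pi.single 2 (y 2)
    have hy : y = a + b + c := by
      funext j
      fin_cases j <;> simp [a, b, c]
    have k0 := shift_le (h 0) hg (hg' 0) (y 0)
    have k1 := shift_le (h 1) hg (hg' 1) (y 1)
    have k2 := shift_le (h 2) hg (hg' 2) (y 2)
    rw [← integral_add_right_eq_self _ a] at k1
    rw [← integral_add_right_eq_self _ (a + b)] at k2
    have e : ∫ x, (g (x + y) - g x) ^ 2 = 2 * (∫ x, g x ^ 2) - 2 * ∫ x, g (x + y) * g x := by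
      rw [two_mul (∫ x, g x ^ 2)]
      nth_rw 1 [← integral_add_right_eq_self (fun x => g x ^ 2) y]
      rw [← integral_add (integ (by fun_prop)) (integ (by fun_prop)), ← integral_const_mul,
        ← integral_sub (integ (by fun_prop)) (integ (by fun_prop))]
      exact integral_congr_ae (Eventually.of_forall fun x => by ring)
    have e2 : ∫ x, (g (x + y) - g x) ^ 2 ≤ 3 * ((∫ x, (g (x + a) - g x) ^ 2)
        + (∫ x, (g (x + a + b) - g (x + a)) ^ 2)
        + ∫ x, (g (x + (a + b) + c) - g (x + (a + b))) ^ 2) := by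
      rw [← integral_add (integ (by fun_prop)) (integ (by fun_prop)),
        ← integral_add (integ (by fun_prop)) (integ (by fun_prop)), ← integral_const_mul]
      refine integral_mono (integ (by fun_prop)) (integ (by fun_prop)) fun x => ?_
      simp only [hy, ← add_assoc]
      nlinarith [sq_nonneg (g (x + a) - g x - (g (x + a + b) - g (x + a))),
        sq_nonneg (g (x + a) - g x - (g (x + a + b + c) - g (x + a + b))),
        sq_nonneg (g (x + a + b) - g (x + a) - (g (x + a + b + c) - g (x + a + b)))]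
    rw [Fin.sum_univ_three]
    linarith
  have ci : Integrable (Function.uncurry fun y x : TT 3 => g (x + y) * g x)
      (volume.prod volume) :=
    Continuous.integrable_of_hasCompactSupport (by fun_prop) (HasCompactSupport.of_compactSpace _)
  have e : ∫ y : TT 3, ∫ x, g (x + y) * g x = 0 := by
    rw [integral_integral_swap ci]
    simp only [integral_mul_const, integral_add_left_eq_self, h0, zero_mul, integral_zero]
  have ci' : Integrable fun y : TT 3 => ∫ x, g (x + y) * g x := ci.integral_prod_left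
  have := integral_mono ((integrable_const _).sub (ci'.const_mul 2))
    (integrable_const _) key
  simp only [Pi.sub_apply] at this
  rw [integral_sub (integrable_const _) (ci'.const_mul 2)] at this
  simp only [integral_const, probReal_univ, smul_eq_mul, one_mul, integral_const_mul, e] at this
  linarith

/-! ## Classical solutions with explicit derivatives -/

/-- Classical solution on `[0,T]`, with all derivatives given as explicit data. -/
structure Cl (ν T : ℝ) (f u : ℝ → TT d → Fin d → ℝ) (p : ℝ → TT d → ℝ)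
    (ut : ℝ → TT d → Fin d → ℝ) (ux uxx : Fin d → ℝ → TT d → Fin d → ℝ)
    (px : Fin d → ℝ → TT d → ℝ) : Prop where
  dt : ∀ t ∈ Icc 0 T, ∀ x k, HasDerivWithinAt (fun s => u s x k) (ut t x k) (Icc 0 T) t
  dx : ∀ t ∈ Icc 0 T, ∀ j k, IsPD j (fun x => u t x k) (fun x => ux j t x k)
  dxx : ∀ t ∈ Icc 0 T, ∀ j k, IsPD j (fun x => ux j t x k) (fun x => uxx j t x k)
  dp : ∀ t ∈ Icc 0 T, ∀ k, IsPD k (p t) (px k t)
  cu : ∀ k, ContinuousOn (fun z : ℝ × TT d => u z.1 z.2 k) (Icc 0 T ×ˢ univ)
  cut : ∀ k, ContinuousOn (fun z : ℝ × TT d => ut z.1 z.2 k) (Icc 0 T ×ˢ univ)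
  cux : ∀ j k, ContinuousOn (fun z : ℝ × TT d => ux j z.1 z.2 k) (Icc 0 T ×ˢ univ)
  cuxx : ∀ t ∈ Icc 0 T, ∀ j k, Continuous fun x => uxx j t x k
  cp : ∀ t ∈ Icc 0 T, Continuous (p t)
  cpx : ∀ t ∈ Icc 0 T, ∀ k, Continuous (px k t)
  eqn : ∀ t ∈ Icc 0 T, ∀ x k, ut t x k + ∑ j, u t x j * ux j t x k =
    - px k t x + ν * ∑ j, uxx j t x k + f t x k
  div : ∀ t ∈ Icc 0 T, ∀ x, ∑ j, ux j t x j = 0
  mean : ∀ t ∈ Icc 0 T, ∫ x, p t x = 0

lemma quad_bound {w : Fin d → ℝ} {a : Fin d → Fin d → ℝ} {C : ℝ} (ha : ∀ j k, |a j k| ≤ C) :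
    - ∑ k, w k * ∑ j, w j * a j k ≤ d * C * ∑ k, w k * w k := by
  have h : ∀ j k, -(w k * (w j * a j k)) ≤ C / 2 * (w k * w k) + C / 2 * (w j * w j) := by
    intro j k
    have h1 := abs_le.1 (ha j k)
    nlinarith [mul_nonneg (sub_nonneg.2 h1.2) (sq_nonneg (w k - w j)),
      mul_nonneg (sub_nonneg.2 h1.1) (sq_nonneg (w k + w j))]
  have := Finset.sum_le_sum fun k (_ : k ∈ Finset.univ) =>
    Finset.sum_le_sum fun j (_ : j ∈ Finset.univ) => h j k
  simp only [Finset.sum_neg_distrib, Finset.sum_add_distrib, Finset.sum_const,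
    Finset.card_univ, Fintype.card_fin, nsmul_eq_mul] at this
  simp only [← Finset.mul_sum] at this
  linarith

lemma alg {w v rx : Fin d → ℝ} {ux wx wxx vx : Fin d → Fin d → ℝ} {r ν : ℝ}
    (d1 : ∑ j, vx j j = 0) (d2 : ∑ j, wx j j = 0) :
    ∑ k, w k * (- ∑ j, w j * ux j k - ∑ j, v j * wx j k - rx k + ν * ∑ j, wxx j k)
      = - ∑ k, w k * ∑ j, w j * ux j k + ∑ j, ((-(1 / 2) : ℝ) * (vx j j * ∑ k, w k * w k
        + v j * ∑ k, (wx j k * w k + w k * wx j k)) - (wx j j * r + w j * rx j)
        + ν * ∑ k, (wx j k * wx j k + w k * wxx j k)) - ν * ∑ j, ∑ k, wx j k ^ 2 := by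
  have A : ∑ j, v j * ∑ k, (wx j k * w k + w k * wx j k) = 2 * ∑ k, w k * ∑ j, v j * wx j k := by
    simp only [Finset.mul_sum]
    rw [Finset.sum_comm]
    exact Finset.sum_congr rfl fun k _ => Finset.sum_congr rfl fun j _ => by ring
  have B : ∑ j, ∑ k, (wx j k * wx j k + w k * wxx j k)
      = ∑ j, ∑ k, wx j k ^ 2 + ∑ k, w k * ∑ j, wxx j k := by
    simp only [Finset.mul_sum, Finset.sum_add_distrib, sq]
    rw [Finset.sum_comm (f := fun j k => w k * wxx j k)]
  have C : ∑ k, w k * (- ∑ j, w j * ux j k - ∑ j, v j * wx j k - rx k + ν * ∑ j, wxx j k)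
      = - ∑ k, w k * ∑ j, w j * ux j k - ∑ k, w k * ∑ j, v j * wx j k - ∑ k, w k * rx k
        + ν * ∑ k, w k * ∑ j, wxx j k := by
    rw [Finset.mul_sum _ _ ν, ← Finset.sum_neg_distrib, ← Finset.sum_sub_distrib,
      ← Finset.sum_sub_distrib, ← Finset.sum_add_distrib]
    exact Finset.sum_congr rfl fun k _ => by ring
  rw [C, Finset.sum_add_distrib, Finset.sum_sub_distrib, ← Finset.mul_sum, ← Finset.mul_sum, B,
    Finset.sum_add_distrib, Finset.sum_add_distrib, A, ← Finset.sum_mul, ← Finset.sum_mul, d1, d2]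
  ring

section main

variable {ν T : ℝ} {f u v : ℝ → TT d → Fin d → ℝ} {p q : ℝ → TT d → ℝ}
  {ut vt : ℝ → TT d → Fin d → ℝ} {ux uxx vx vxx : Fin d → ℝ → TT d → Fin d → ℝ}
  {px qx : Fin d → ℝ → TT d → ℝ}

/-- The energy inequality at a fixed time. -/
lemma energy_ineq (hu : Cl ν T f u p ut ux uxx px) (hv : Cl ν T f v q vt vx vxx qx)
    {C : ℝ} {t : ℝ} (ht : t ∈ Icc 0 T) (hC : ∀ x j k, |ux j t x k| ≤ C) :
    ∫ x, ∑ k, (u t x k - v t x k) * (ut t x k - vt t x k) ≤
      d * C * (∫ x, ∑ k, (u t x k - v t x k) * (u t x k - v t x k))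
        - ν * ∑ j, ∑ k, ∫ x, (ux j t x k - vx j t x k) ^ 2 := by
  have cu := fun k => cont_slice (hu.cu k) ht
  have cv := fun k => cont_slice (hv.cu k) ht
  have cut := fun k => cont_slice (hu.cut k) ht
  have cvt := fun k => cont_slice (hv.cut k) ht
  have cux := fun j k => cont_slice (hu.cux j k) ht
  have cvx := fun j k => cont_slice (hv.cux j k) ht
  simp only at cu cv cut cvt cux cvx
  set w : TT d → Fin d → ℝ := fun x k => u t x k - v t x k with hw
  set wx : Fin d → TT d → Fin d → ℝ := fun j x k => ux j t x k - vx j t x k with hwx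
  set wxx : Fin d → TT d → Fin d → ℝ := fun j x k => uxx j t x k - vxx j t x k with hwxx
  set r : TT d → ℝ := fun x => p t x - q t x with hr
  set rx : Fin d → TT d → ℝ := fun k x => px k t x - qx k t x with hrx
  have cw : ∀ k, Continuous fun x => w x k := fun k => (cu k).sub (cv k)
  have cwx : ∀ j k, Continuous fun x => wx j x k := fun j k => (cux j k).sub (cvx j k)
  have cwxx : ∀ j k, Continuous fun x => wxx j x k :=
    fun j k => (hu.cuxx t ht j k).sub (hv.cuxx t ht j k)
  have cr : Continuous r := (hu.cp t ht).sub (hv.cp t ht)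
  have crx : ∀ k, Continuous (rx k) := fun k => (hu.cpx t ht k).sub (hv.cpx t ht k)
  have dw : ∀ j k, IsPD j (fun x => w x k) (fun x => wx j x k) :=
    fun j k => (hu.dx t ht j k).sub (hv.dx t ht j k)
  have dwx : ∀ j k, IsPD j (fun x => wx j x k) (fun x => wxx j x k) :=
    fun j k => (hu.dxx t ht j k).sub (hv.dxx t ht j k)
  have dr : ∀ k, IsPD k r (rx k) := fun k => (hu.dp t ht k).sub (hv.dp t ht k)
  set G' : Fin d → TT d → ℝ := fun j x =>
    (-(1 / 2) : ℝ) * (vx j t x j * ∑ k, w x k * w x k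
        + v t x j * ∑ k, (wx j x k * w x k + w x k * wx j x k))
      - (wx j x j * r x + w x j * rx j x)
      + ν * ∑ k, (wx j x k * wx j x k + w x k * wxx j x k) with hG'
  have cG' : ∀ j, Continuous (G' j) := fun j => by
    simp only [hG']
    have := cv j
    have := cvx j j
    have := cwx j
    have := cwxx j
    have := crx j
    fun_prop
  have iG : ∀ j, ∫ x, G' j x = 0 := fun j =>
    (((((hv.dx t ht j j).mul (IsPD.sum fun k => (dw j k).mul (dw j k))).const_mul _).sub
      ((dw j j).mul (dr j))).add ((IsPD.sum fun k => (dw j k).mul (dwx j k)).const_mul ν)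
      ).integral_eq_zero (by
        have := cv j
        have := cwx j
        fun_prop) (cG' j)
  have hpt : ∀ x, ∑ k, w x k * (ut t x k - vt t x k) ≤
      d * C * ∑ k, w x k * w x k + ∑ j, G' j x - ν * ∑ j, ∑ k, wx j x k ^ 2 := by
    intro x
    have e1 : ∀ k, ut t x k - vt t x k = - ∑ j, w x j * ux j t x k - ∑ j, v t x j * wx j x k
        - rx k x + ν * ∑ j, wxx j x k := by
      intro k
      have a1 := hu.eqn t ht x k
      have a2 := hv.eqn t ht x k
      simp only [hw, hwx, hwxx, hrx, sub_mul, mul_sub, Finset.sum_sub_distrib]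
      linarith
    have d2 : ∑ j, wx j x j = 0 := by
      simp only [hwx, Finset.sum_sub_distrib, hu.div t ht x, hv.div t ht x, sub_zero]
    have q1 := quad_bound (w := w x) (a := fun j k => ux j t x k) (hC x)
    simp only [e1, hG']
    rw [alg (vx := fun j k => vx j t x k) (wx := fun j => wx j x) (r := r x) (hv.div t ht x) d2]
    linarith
  have i2 : Integrable fun x => ∑ k, w x k * w x k := integ (by fun_prop)
  have i3 : ∀ j, Integrable (G' j) := fun j => integ (cG' j)
  have i4 : ∀ j k, Integrable fun x => wx j x k ^ 2 := fun j k => integ (by fun_prop)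
  have i5 := fun j => integrable_finsetSum Finset.univ fun k _ => i4 j k
  have i6 := (i2.const_mul (d * C)).add (integrable_finsetSum Finset.univ fun j _ => i3 j)
  have i7 := (integrable_finsetSum Finset.univ fun j _ => i5 j).const_mul ν
  refine (integral_mono (integ (by fun_prop)) (i6.sub i7) hpt).trans_eq ?_
  rw [integral_sub' i6 i7, integral_add' (i2.const_mul _) (integrable_finsetSum _ fun j _ => i3 j),
    integral_finsetSum _ fun j _ => i3 j, integral_const_mul, integral_const_mul,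
    integral_finsetSum _ fun j _ => i5 j]
  simp only [iG, integral_finsetSum _ fun k _ => i4 _ k, Finset.sum_const_zero, add_zero]
  rfl

lemma energy_gronwall (hu : Cl ν T f u p ut ux uxx px) (hv : Cl ν T f v q vt vx vxx qx) {K : ℝ}
    (hK : ∀ s ∈ Icc 0 T, 2 * ∫ x, ∑ k, (u s x k - v s x k) * (ut s x k - vt s x k) ≤
      K * ∫ x, ∑ k, (u s x k - v s x k) * (u s x k - v s x k)) {t : ℝ} (ht : t ∈ Icc 0 T) :
    ∫ x, ∑ k, (u t x k - v t x k) * (u t x k - v t x k) ≤
      Real.exp (K * t) * ∫ x, ∑ k, (u 0 x k - v 0 x k) * (u 0 x k - v 0 x k) := by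
  have := gronwall (K := K) (c := 0)
    (g := fun z => ∑ k, (u z.1 z.2 k - v z.1 z.2 k) * (u z.1 z.2 k - v z.1 z.2 k))
    (g' := fun z => 2 * ∑ k, (u z.1 z.2 k - v z.1 z.2 k) * (ut z.1 z.2 k - vt z.1 z.2 k))
    (continuousOn_finsetSum _ fun k _ => ((hu.cu k).sub (hv.cu k)).mul ((hu.cu k).sub (hv.cu k)))
    (continuousOn_const.mul (continuousOn_finsetSum _ fun k _ =>
      ((hu.cu k).sub (hv.cu k)).mul ((hu.cut k).sub (hv.cut k)))) (fun s hs x => ?_)
    (fun s hs => by simpa only [integral_const_mul, add_zero] using hK s hs) ht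
  · simpa only [add_zero] using this
  have h1 := fun k => (hu.dt s hs x k).fun_sub (hv.dt s hs x k)
  refine (HasDerivWithinAt.fun_sum (u := Finset.univ) fun k _ =>
    (h1 k).fun_mul (h1 k)).congr_deriv ?_
  simp only [Finset.mul_sum]
  exact Finset.sum_congr rfl fun k _ => by ring

/-- Uniqueness of the velocity. -/
theorem velocity_unique (hν : 0 ≤ ν) (hu : Cl ν T f u p ut ux uxx px)
    (hv : Cl ν T f v q vt vx vxx qx) (h0 : u 0 = v 0) {t : ℝ} (ht : t ∈ Icc 0 T) : u t = v t := by
  obtain ⟨C, hC⟩ : ∃ C, ∀ s ∈ Icc 0 T, ∀ x j k, |ux j s x k| ≤ C := by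
    choose C hC using fun j k => bound_of_contOn (hu.cux j k)
    refine ⟨∑ j, ∑ k, |C j k|, fun s hs x j k => (hC j k s hs x).trans ((le_abs_self _).trans ?_)⟩
    calc |C j k| ≤ ∑ k, |C j k| :=
          Finset.single_le_sum (f := fun k => |C j k|) (fun _ _ => abs_nonneg _) (Finset.mem_univ k)
      _ ≤ ∑ j, ∑ k, |C j k| :=
          Finset.single_le_sum (f := fun j => ∑ k, |C j k|)
            (fun _ _ => Finset.sum_nonneg fun _ _ => abs_nonneg _) (Finset.mem_univ j)
  have hle := energy_gronwall hu hv (K := 2 * (d * C)) (fun s hs => by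
    have := energy_ineq hu hv hs (hC s hs)
    have h2 : 0 ≤ ν * ∑ j, ∑ k, ∫ x, (ux j s x k - vx j s x k) ^ 2 :=
      mul_nonneg hν (Finset.sum_nonneg fun j _ => Finset.sum_nonneg fun k _ =>
        integral_nonneg fun _ => sq_nonneg _)
    linarith) ht
  simp only [h0, sub_self, mul_zero, Finset.sum_const_zero, integral_zero] at hle
  have gnn : ∀ x, 0 ≤ ∑ k, (u t x k - v t x k) * (u t x k - v t x k) :=
    fun x => Finset.sum_nonneg fun k _ => mul_self_nonneg _
  have cgt : Continuous fun x => ∑ k, (u t x k - v t x k) * (u t x k - v t x k) :=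
    continuous_finsetSum _ fun k _ => ((cont_slice (hu.cu k) ht).sub (cont_slice (hv.cu k) ht)).mul
      ((cont_slice (hu.cu k) ht).sub (cont_slice (hv.cu k) ht))
  have hae := (integral_eq_zero_iff_of_nonneg gnn (integ cgt)).1
    (le_antisymm hle (integral_nonneg gnn))
  have hz := (Continuous.ae_eq_iff_eq volume cgt continuous_const).1 hae
  funext x k
  have := (Finset.sum_eq_zero_iff_of_nonneg fun k _ => mul_self_nonneg _).1 (congrFun hz x) k
    (Finset.mem_univ k)
  exact sub_eq_zero.1 (mul_self_eq_zero.1 this)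

/-- Uniqueness of the pressure. -/
theorem pressure_unique (hν : 0 ≤ ν) (hT : 0 < T) (hu : Cl ν T f u p ut ux uxx px)
    (hv : Cl ν T f v q vt vx vxx qx) (h0 : u 0 = v 0) {t : ℝ} (ht : t ∈ Icc 0 T) : p t = q t := by
  have huv : ∀ s ∈ Icc 0 T, u s = v s := fun s hs => velocity_unique hν hu hv h0 hs
  have e1 : ∀ x k, ut t x k = vt t x k := by
    intro x k
    have h2 : HasDerivWithinAt (fun s => u s x k) (vt t x k) (Icc 0 T) t :=
      (hv.dt t ht x k).congr (fun s hs => by rw [huv s hs]) (by rw [huv t ht])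
    exact (uniqueDiffOn_Icc hT t ht).eq_deriv _ (hu.dt t ht x k) h2
  have e2 : ∀ j k, (fun x => ux j t x k) = fun x => vx j t x k := by
    intro j k
    have h1 := hu.dx t ht j k
    rw [huv t ht] at h1
    exact h1.unique (hv.dx t ht j k)
  have e3 : ∀ j k, (fun x => uxx j t x k) = fun x => vxx j t x k := by
    intro j k
    have h1 := hu.dxx t ht j k
    rw [e2 j k] at h1
    exact h1.unique (hv.dxx t ht j k)
  have e4 : ∀ k x, px k t x = qx k t x := by
    intro k x
    have a1 := hu.eqn t ht x k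
    have a2 := hv.eqn t ht x k
    have b2 : ∀ j, ux j t x k = vx j t x k := fun j => congrFun (e2 j k) x
    have b3 : ∀ j, uxx j t x k = vxx j t x k := fun j => congrFun (e3 j k) x
    simp only [e1, huv t ht, b2, b3] at a1
    linarith
  have hc := const_of_pd_zero (g := fun x => p t x - q t x) fun k => by
    simpa only [e4, sub_self] using (hu.dp t ht k).sub (hv.dp t ht k)
  have hi : ∫ x, (p t x - q t x) = 0 := by
    rw [integral_sub (integ (hu.cp t ht)) (integ (hv.cp t ht)), hu.mean t ht, hv.mean t ht,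
      sub_zero]
  simp only [hc, integral_const, probReal_univ, smul_eq_mul, one_mul] at hi
  funext x
  linarith [hc x]

/-- The mean of the difference of two solutions is constant in time. -/
lemma mean_const (hu : Cl ν T f u p ut ux uxx px) (hv : Cl ν T f v q vt vx vxx qx) (k : Fin d)
    {t : ℝ} (ht : t ∈ Icc 0 T) : ∫ x, (u t x k - v t x k) = ∫ x, (u 0 x k - v 0 x k) := by
  have one : ∀ {u : ℝ → TT d → Fin d → ℝ} {p ut ux uxx px}, Cl ν T f u p ut ux uxx px →
      ∀ s ∈ Icc 0 T, (Continuous fun x => ut s x k - f s x k) ∧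
        ∫ x, (ut s x k - f s x k) = 0 := by
    intro u p ut ux uxx px hu s hs
    have cu := fun k => cont_slice (hu.cu k) hs
    have cux := fun j k => cont_slice (hu.cux j k) hs
    have cuxx := hu.cuxx s hs
    have cpx := hu.cpx s hs k
    simp only at cu cux
    have e : ∀ x, ut s x k - f s x k = ∑ j, (ν * uxx j s x k
        - (ux j s x j * u s x k + u s x j * ux j s x k)) - px k s x := fun x => by
      have := hu.eqn s hs x k
      rw [Finset.sum_sub_distrib, Finset.sum_add_distrib, ← Finset.mul_sum, ← Finset.sum_mul,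
        hu.div s hs x]
      linarith
    have c1 : ∀ j, Continuous fun x => ν * uxx j s x k
        - (ux j s x j * u s x k + u s x j * ux j s x k) := fun j => by
      have := cuxx j k
      have := cux j
      fun_prop
    simp only [e]
    refine ⟨by fun_prop, ?_⟩
    rw [integral_sub (integ (by fun_prop)) (integ cpx), integral_finsetSum _ fun j _ => integ (c1 j),
      (hu.dp s hs k).integral_eq_zero (hu.cp s hs) cpx, sub_zero]
    exact Finset.sum_eq_zero fun j _ => (((hu.dxx s hs j k).const_mul ν).sub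
      ((hu.dx s hs j j).mul (hu.dx s hs j k))).integral_eq_zero (by
        have := cux j k
        fun_prop) (c1 j)
  have two : ∀ {u v : ℝ → TT d → Fin d → ℝ} {p ut ux uxx px q vt vx vxx qx},
      Cl ν T f u p ut ux uxx px → Cl ν T f v q vt vx vxx qx →
      ∫ x, (u t x k - v t x k) ≤ ∫ x, (u 0 x k - v 0 x k) := by
    intro u v p ut ux uxx px q vt vx vxx qx hu hv
    have := gronwall (K := 0) (c := 0) (g := fun z => u z.1 z.2 k - v z.1 z.2 k)
      (g' := fun z => ut z.1 z.2 k - vt z.1 z.2 k) ((hu.cu k).sub (hv.cu k))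
      ((hu.cut k).sub (hv.cut k)) (fun s hs x => (hu.dt s hs x k).fun_sub (hv.dt s hs x k))
      (fun s hs => ?_) ht
    · simpa using this
    have e := integral_sub (integ (one hu s hs).1) (integ (one hv s hs).1)
    rw [(one hu s hs).2, (one hv s hs).2] at e
    simp only [sub_sub_sub_cancel_right] at e
    simp [e]
  have a := two hu hv
  have b := two hv hu
  have n : ∀ s, ∫ x, (v s x k - u s x k) = - ∫ x, (u s x k - v s x k) := fun s => by
    rw [← integral_neg]
    simp only [neg_sub]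
  rw [n, n] at b
  linarith

end main

/-- A solution with a small velocity gradient attracts all solutions with the same mean. -/
theorem stable {ν T : ℝ} {f u v : ℝ → TT 3 → Fin 3 → ℝ} {p q ut vt ux uxx vx vxx px qx}
    (hν : 0 ≤ ν) (hu : Cl ν T f u p ut ux uxx px) (hv : Cl ν T f v q vt vx vxx qx)
    (hC : ∀ s ∈ Icc 0 T, ∀ x j k, |ux j s x k| ≤ ν / 6)
    (h0 : ∀ k, ∫ x, (u 0 x k - v 0 x k) = 0) {t : ℝ} (ht : t ∈ Icc 0 T) :
    ∫ x, ∑ k, (u t x k - v t x k) * (u t x k - v t x k) ≤
      Real.exp (-ν * t) * ∫ x, ∑ k, (u 0 x k - v 0 x k) * (u 0 x k - v 0 x k) := by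
  refine energy_gronwall hu hv (fun s hs => ?_) ht
  have h1 := energy_ineq hu hv hs (hC s hs)
  have cw : ∀ k, Continuous fun x => u s x k - v s x k :=
    fun k => (cont_slice (hu.cu k) hs).sub (cont_slice (hv.cu k) hs)
  have h2 : ∫ x, ∑ k, (u s x k - v s x k) * (u s x k - v s x k)
      ≤ ∑ j, ∑ k, ∫ x, (ux j s x k - vx j s x k) ^ 2 := by
    rw [integral_finsetSum _ fun k _ => integ ((cw k).fun_mul (cw k)), Finset.sum_comm]
    refine Finset.sum_le_sum fun k _ => ?_
    simp only [← sq]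
    exact poincare (fun j => (hu.dx s hs j k).sub (hv.dx s hs j k)) (cw k)
      (fun j => (cont_slice (hu.cux j k) hs).sub (cont_slice (hv.cux j k) hs))
      ((mean_const hu hv k hs).trans (h0 k))
  have h3 := mul_le_mul_of_nonneg_left h2 hν
  push_cast at h1
  linarith

end Vale.Agent.N113P.En
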