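import Vale.Agent.N113P.Defs
import Vale.Agent.N113P.Energy

/-!
# P113: classical solutions on `ℝ^d` and on the torus; explicit smooth solutions
-/

open MeasureTheory Set Filter Topology Laplacian
open scoped ContDiff

namespace Vale.Agent.N113P

variable {d : ℕ}

/-- Euclidean space. -/
abbrev E (d : ℕ) := EuclideanSpace ℝ (Fin d)

/-- The coordinate vectors. -/
noncomputable abbrev ev (i : Fin d) : E d := EuclideanSpace.single i 1

/-- The covering map. -/
def proj (x : E d) : En.TT d := fun i => (x i : UnitAddCircle)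

/-- A section of the covering map with values in the cube. -/
noncomputable def rep (y : En.TT d) : E d := WithLp.toLp 2 fun i => (AddCircle.equivIoc 1 0 (y i) : ℝ)

lemma proj_rep (y : En.TT d) : proj (rep y) = y :=
  funext fun i => (AddCircle.equivIoc 1 0).symm_apply_apply (y i)

lemma rep_proj {x : E d} (hx : x ∈ cube d) : rep (proj x) = x := by
  ext i
  exact congrArg Subtype.val (AddCircle.equivIoc_coe_eq (p := 1) (a := 0) (by simpa using hx i))

/-- Periodicity. -/
def Per {F : Type} (g : E d → F) : Prop := ∀ x i, g (x + ev i) = g x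

lemma Per.eq {F : Type} {g : E d → F} (h : Per g) {x y : E d} (e : proj x = proj y) : g x = g y := by
  have h1 : ∀ i, ∃ m : ℤ, x i = y i + m := fun i => by
    obtain ⟨m, hm⟩ := AddSubgroup.mem_zmultiples_iff.1 (QuotientAddGroup.eq.1 (congrFun e i).symm)
    exact ⟨m, by rw [zsmul_eq_mul, mul_one] at hm; linarith⟩
  choose m hm using h1
  have h2 : ∀ S : Finset (Fin d), g (y + ∑ i ∈ S, m i • ev i) = g y := by
    intro S
    induction S using Finset.induction_on with
    | empty => simp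
    | insert i S hi ih =>
      rw [Finset.sum_insert hi, add_comm (m i • _), ← add_assoc,
        Function.Periodic.zsmul (f := g) (fun x => h x i) (m i), ih]
  rw [← h2 Finset.univ]
  congr 1
  ext i
  simp [hm i, Pi.single_apply]

lemma Per.rep {F : Type} {g : E d → F} (h : Per g) (x : E d) : g (rep (proj x)) = g x :=
  h.eq (proj_rep _)

lemma proj_oq : IsOpenQuotientMap (proj : E d → En.TT d) :=
  (IsOpenQuotientMap.piMap fun _ : Fin d =>
    (QuotientAddGroup.isOpenQuotientMap_mk (N := AddSubgroup.zmultiples (1 : ℝ)))).comp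
      (PiLp.homeomorph 2 fun _ : Fin d => ℝ).isOpenQuotientMap

lemma contOn_desc {T : ℝ} {G : ℝ → E d → ℝ}
    (hG : ContinuousOn (fun z : ℝ × E d => G z.1 z.2) (Icc 0 T ×ˢ univ))
    (hp : ∀ t ∈ Icc 0 T, Per (G t)) :
    ContinuousOn (fun z : ℝ × En.TT d => G z.1 (rep z.2)) (Icc 0 T ×ˢ univ) := by
  have h1 : Continuous fun z : Icc 0 T × En.TT d => G z.1 (rep z.2) := by
    rw [← (IsOpenQuotientMap.id.prodMap proj_oq).continuous_comp_iff]
    have : Continuous fun z : Icc 0 T × E d => G z.1 z.2 :=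
      hG.comp_continuous (f := fun z : Icc 0 T × E d => (z.1.1, z.2)) (by fun_prop)
        fun z => ⟨z.1.2, mem_univ _⟩
    exact this.congr fun z => ((hp _ z.1.2).rep z.2).symm
  rw [continuousOn_iff_continuous_domRestrict]
  exact h1.comp (f := fun z : ↥(Icc 0 T ×ˢ (univ : Set (En.TT d))) => (⟨z.1.1, z.2.1⟩, z.1.2))
    (by fun_prop)

lemma integral_desc {g : E d → ℝ} (hg : Continuous fun y : En.TT d => g (rep y)) :
    ∫ y : En.TT d, g (rep y) = ∫ x in cube d, g x := by
  have h1 := measurePreserving_pi (fun _ : Fin d => volume.restrict (Ioc (0 : ℝ) (0 + 1)))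
    (fun _ => volume) fun _ => UnitAddCircle.measurePreserving_mk 0
  rw [← Measure.restrict_pi_pi, zero_add] at h1
  have hm : MeasurableSet (univ.pi fun _ : Fin d => Ioc (0 : ℝ) 1) :=
    MeasurableSet.univ_pi fun _ => measurableSet_Ioc
  have e : cube d = WithLp.ofLp ⁻¹' univ.pi fun _ => Ioc (0 : ℝ) 1 := by
    ext x
    simp [cube]
  have h2 : MeasurePreserving proj (volume.restrict (cube d)) volume :=
    e ▸ h1.comp ((PiLp.volume_preserving_ofLp (Fin d)).restrict_preimage hm)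
  rw [← h2.map_eq, integral_map h2.measurable.aemeasurable hg.aestronglyMeasurable]
  refine setIntegral_congr_fun ?_ fun x hx => congrArg g (rep_proj hx)
  exact e ▸ (PiLp.volume_preserving_ofLp (Fin d)).measurable hm

lemma proj_add (y : En.TT d) (i : Fin d) (s : ℝ) : proj (rep y + s • ev i) = y + En.sh i s := by
  funext j
  have := congrFun (proj_rep y) j
  by_cases h : j = i
  · subst h
    simp only [proj, En.sh] at this ⊢
    simp [this]
  · simp only [proj, En.sh] at this ⊢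
    simp [this, h]

lemma isPD_desc {F : Type} [NormedAddCommGroup F] [NormedSpace ℝ F] {g : E d → F}
    (hg : Differentiable ℝ g) (hp : Per g) (L : F →L[ℝ] ℝ) (i : Fin d) :
    En.IsPD i (fun y => L (g (rep y))) fun y => L (fderiv ℝ g (rep y) (ev i)) := by
  intro y
  have h1 : HasDerivAt (fun s : ℝ => rep y + s • ev i) (ev i) 0 := by
    simpa using ((hasDerivAt_id (0 : ℝ)).smul_const (ev i)).const_add (rep y)
  have h2 := L.hasFDerivAt.comp_hasDerivAt _
    ((hg (rep y)).hasFDerivAt.comp_hasDerivAt_of_eq _ h1 (by simp))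
  refine h2.congr_of_eventuallyEq (Eventually.of_forall fun s => ?_)
  exact congrArg L (hp.eq (by rw [proj_rep, proj_add]))

lemma Per.iter {F : Type} [NormedAddCommGroup F] [NormedSpace ℝ F] {g : E d → F} (h : Per g)
    (j : ℕ) : Per (iteratedFDeriv ℝ j g) := fun x i => by
  rw [← iteratedFDeriv_comp_add_right]
  simp only [h _ i]

lemma Per.fd {F : Type} [NormedAddCommGroup F] [NormedSpace ℝ F] {g : E d → F} (h : Per g) :
    Per (fderiv ℝ g) := fun x i => by
  rw [← fderiv_comp_add_right]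
  simp only [h _ i]

lemma Reg.desc {F : Type} [NormedAddCommGroup F] [NormedSpace ℝ F] {k : ℕ} {T : ℝ}
    {g : ℝ → E d → F} (h : Reg k T g) {j : ℕ} (hj : j ≤ k) (m : Fin j → E d) (L : F →L[ℝ] ℝ) :
    ContinuousOn (fun z : ℝ × En.TT d => L (iteratedFDeriv ℝ j (g z.1) (rep z.2) m))
      (Icc 0 T ×ˢ univ) :=
  contOn_desc (G := fun t x => L (iteratedFDeriv ℝ j (g t) x m))
    (L.continuous.comp_continuousOn (((h.2 j hj).mono fun _ hz => hz.1).eval_const m))
    fun t ht x i => congrArg (fun A => L (A m)) (Per.iter (h.1 t ht).2 j x i)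

lemma clm_apply (A : E d →L[ℝ] E d) (v : E d) (k : Fin d) : A v k = ∑ j, v j * A (ev j) k := by
  conv_lhs => rw [← (EuclideanSpace.basisFun (Fin d) ℝ).sum_repr v]
  simp

lemma lap_apply (g : E d → E d) (x : E d) (k : Fin d) :
    (Δ g) x k = ∑ j, fderiv ℝ (fderiv ℝ g) x (ev j) (ev j) k := by
  rw [InnerProductSpace.laplacian_eq_iteratedFDeriv_orthonormalBasis g
    (EuclideanSpace.basisFun (Fin d) ℝ)]
  simp [iteratedFDeriv_two_apply]

lemma grad_apply (p : E d → ℝ) (x : E d) (k : Fin d) : gradient p x k = fderiv ℝ p x (ev k) := by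
  rw [← inner_gradient_left, EuclideanSpace.inner_single_right]
  simp

lemma trace_apply (A : E d →L[ℝ] E d) :
    LinearMap.trace ℝ (E d) (A : E d →ₗ[ℝ] E d) = ∑ j, A (ev j) j := by
  rw [LinearMap.trace_eq_sum_inner _ (EuclideanSpace.basisFun (Fin d) ℝ)]
  simp [EuclideanSpace.inner_single_left]

variable {ν T : ℝ} {f u v : ℝ → E d → E d} {p q : ℝ → E d → ℝ}

theorem Solves.cl (h : Solves ν f T u p) :
    ∃ ut uxx px, En.Cl ν T (fun t y k => f t (rep y) k) (fun t y k => u t (rep y) k)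
      (fun t y => p t (rep y)) ut (fun j t y k => fderiv ℝ (u t) (rep y) (ev j) k) uxx px := by
  obtain ⟨ut, hu, hut, hp, h⟩ := h
  have du : ∀ t ∈ Icc 0 T, Differentiable ℝ (u t) := fun t ht =>
    (hu.1 t ht).1.differentiable (by norm_num)
  have cp : ∀ t ∈ Icc 0 T, Continuous fun y => p t (rep y) := fun t ht =>
    En.cont_slice (by simpa using hp.desc (Nat.zero_le _) ![] (.id ℝ ℝ)) ht
  refine ⟨fun t y k => ut t (rep y) k,
    fun j t y k => fderiv ℝ (fderiv ℝ (u t)) (rep y) (ev j) (ev j) k,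
    fun k t y => fderiv ℝ (p t) (rep y) (ev k), fun t ht y k => ?_, fun t ht j k => ?_,
    fun t ht j k => ?_, fun t ht k => ?_, fun k => ?_, fun k => ?_, fun j k => ?_,
    fun t ht j k => ?_, cp, fun t ht k => ?_, fun t ht y k => ?_, fun t ht y => ?_,
    fun t ht => ?_⟩
  · exact (EuclideanSpace.proj k : E d →L[ℝ] ℝ).hasFDerivAt.comp_hasDerivWithinAt _
      ((h t ht).2 (rep y)).1
  · exact isPD_desc (du t ht) (hu.1 t ht).2 (EuclideanSpace.proj k) j
  · exact isPD_desc (((hu.1 t ht).1.fderiv_right (m := 1) (by norm_num)).differentiable one_ne_zero)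
      (Per.fd (hu.1 t ht).2) ((EuclideanSpace.proj k).comp (.apply ℝ (E d) (ev j))) j
  · exact isPD_desc ((hp.1 t ht).1.differentiable one_ne_zero) (hp.1 t ht).2 (.id ℝ ℝ) k
  · simpa using hu.desc (Nat.zero_le _) ![] (EuclideanSpace.proj k)
  · simpa using hut.desc le_rfl ![] (EuclideanSpace.proj k)
  · simpa using hu.desc one_le_two ![ev j] (EuclideanSpace.proj k)
  · exact En.cont_slice (by
      simpa [iteratedFDeriv_two_apply] using hu.desc le_rfl ![ev j, ev j] (EuclideanSpace.proj k)) ht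
  · exact En.cont_slice (by simpa using hp.desc le_rfl ![ev k] (.id ℝ ℝ)) ht
  · have := congrArg (fun w : E d => w k) ((h t ht).2 (rep y)).2.1
    simpa [clm_apply _ (u t (rep y)), lap_apply, grad_apply] using this
  · rw [← trace_apply]
    exact ((h t ht).2 (rep y)).2.2
  · rw [integral_desc (cp t ht)]
    exact (h t ht).1

theorem Solves.unique (hν : 0 ≤ ν) (hT : 0 < T) (hu : Solves ν f T u p) (hv : Solves ν f T v q)
    (h0 : u 0 = v 0) {t : ℝ} (ht : t ∈ Icc 0 T) : u t = v t ∧ p t = q t := by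
  obtain ⟨_, _, _, cu⟩ := hu.cl
  obtain ⟨_, _, _, cv⟩ := hv.cl
  obtain ⟨_, ru, -, rp, -⟩ := hu
  obtain ⟨_, rv, -, rq, -⟩ := hv
  have e1 := En.velocity_unique hν cu cv (by simp only [h0]) ht
  have e2 := En.pressure_unique hν hT cu cv (by simp only [h0]) ht
  refine ⟨funext fun x => ?_, funext fun x => ?_⟩
  · rw [← Per.rep (ru.1 t ht).2 x, ← Per.rep (rv.1 t ht).2 x]
    ext k
    exact congrFun (congrFun e1 (proj x)) k
  · rw [← Per.rep (rp.1 t ht).2 x, ← Per.rep (rq.1 t ht).2 x]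
    exact congrFun e2 (proj x)

theorem Solves.stable {f u v : ℝ → E 3 → E 3} {p q : ℝ → E 3 → ℝ} (hν : 0 ≤ ν)
    (hu : Solves ν f T u p) (hv : Solves ν f T v q)
    (hC : ∀ s x j k, |fderiv ℝ (u s) x (ev j) k| ≤ ν / 6) (hu0 : u 0 = 0)
    (hv0 : ∫ x in cube 3, v 0 x = 0) {t : ℝ} (ht : t ∈ Icc 0 T) :
    ∫ x in cube 3, ‖v t x - u t x‖ ^ 2 ≤ Real.exp (-ν * t) * ∫ x in cube 3, ‖v 0 x‖ ^ 2 := by
  obtain ⟨_, _, _, cu⟩ := hu.cl
  obtain ⟨_, _, _, cv⟩ := hv.cl
  have h0 : (0 : ℝ) ∈ Icc 0 T := ⟨le_rfl, ht.1.trans ht.2⟩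
  have e : ∀ s ∈ Icc 0 T, ∫ y : En.TT 3, ∑ k, (u s (rep y) k - v s (rep y) k) *
      (u s (rep y) k - v s (rep y) k) = ∫ x in cube 3, ‖v s x - u s x‖ ^ 2 := by
    intro s hs
    have c : ∀ k, Continuous fun y => u s (rep y) k - v s (rep y) k := fun k =>
      (En.cont_slice (cu.cu k) hs).sub (En.cont_slice (cv.cu k) hs)
    rw [integral_desc (g := fun x => ∑ k, (u s x k - v s x k) * (u s x k - v s x k))
      (continuous_finsetSum _ fun k _ => (c k).mul (c k))]
    refine integral_congr_ae (Eventually.of_forall fun x => ?_)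
    simp only [EuclideanSpace.real_norm_sq_eq, PiLp.sub_apply]
    exact Finset.sum_congr rfl fun k _ => by ring
  have := En.stable hν cu cv (fun s _ y j k => hC s _ j k) (fun k => ?_) ht
  · rw [e t ht, e 0 h0, hu0] at this
    simpa using this
  · obtain ⟨_, rv, -⟩ := hv
    have hi : IntegrableOn (v 0) (cube 3) := by
      refine ((rv.1 0 h0).1.continuous.continuousOn.integrableOn_compact
        (isCompact_closedBall (0 : E 3) 2)).mono_set fun x hx => ?_
      rw [mem_closedBall_zero_iff, EuclideanSpace.norm_eq, Real.sqrt_le_left (by norm_num),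
        Fin.sum_univ_three]
      simp only [Real.norm_eq_abs, sq_abs]
      nlinarith [(hx 0).1, (hx 0).2, (hx 1).1, (hx 1).2, (hx 2).1, (hx 2).2]
    simp only [hu0, Pi.zero_apply, PiLp.zero_apply, zero_sub, integral_neg]
    rw [integral_desc (g := fun x => v 0 x k) (En.cont_slice (cv.cu k) h0)]
    have := (EuclideanSpace.proj k : E 3 →L[ℝ] ℝ).integral_comp_comm hi
    simpa [hv0] using this

/-! ## Smooth explicit solutions -/

/-- The vector field with the components `U k`. -/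
def vec (U : Fin d → ℝ × E d → ℝ) (t : ℝ) (x : E d) : E d := WithLp.toLp 2 fun k => U k (t, x)

/-- Directional derivatives in space-time. -/
noncomputable def dv (w : ℝ × E d) (G : ℝ × E d → ℝ) (z : ℝ × E d) : ℝ := fderiv ℝ G z w

/-- The Navier-Stokes operator. -/
noncomputable def ns (ν : ℝ) (U : Fin d → ℝ × E d → ℝ) (k : Fin d) (z : ℝ × E d) : ℝ :=
  dv (1, 0) (U k) z + ∑ j, U j z * dv (0, ev j) (U k) z
    - ν * ∑ j, dv (0, ev j) (dv (0, ev j) (U k)) z

lemma dv_smooth {G : ℝ × E d → ℝ} (hG : ContDiff ℝ ∞ G) (w : ℝ × E d) : ContDiff ℝ ∞ (dv w G) :=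
  (hG.fderiv_right (m := ∞) le_rfl).clm_apply contDiff_const

lemma vec_smooth {U : Fin d → ℝ × E d → ℝ} (hU : ∀ k, ContDiff ℝ ∞ (U k)) :
    ContDiff ℝ ∞ (vec U).uncurry := contDiff_euclidean.2 hU

lemma reg_of_smooth {F : Type} [NormedAddCommGroup F] [NormedSpace ℝ F] {g : ℝ → E d → F}
    (hg : ContDiff ℝ ∞ g.uncurry) (hp : ∀ t, Per (g t)) (k : ℕ) (T : ℝ) : Reg k T g := by
  have hk : ∀ j : ℕ, (j : WithTop ℕ∞) ≤ ∞ := fun j => by exact_mod_cast le_top
  refine ⟨fun t _ => ⟨(hg.comp (contDiff_prodMk_right t)).of_le (hk k), hp t⟩,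
    fun j _ => Continuous.continuousOn ?_⟩
  have e : ∀ z : ℝ × E d, iteratedFDeriv ℝ j (g z.1) z.2 =
      (iteratedFDeriv ℝ j g.uncurry z).compContinuousLinearMap
        fun _ => ContinuousLinearMap.inr ℝ ℝ (E d) := by
    rintro ⟨t, x⟩
    have := (ContinuousLinearMap.inr ℝ ℝ (E d)).iteratedFDeriv_comp_right
      (f := fun w => g.uncurry (w + (t, 0))) (hg.comp (contDiff_id.add contDiff_const)) x (hk j)
    rw [iteratedFDeriv_comp_add_right] at this
    simpa [Function.comp_def] using this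
  simp only [e]
  exact (ContinuousMultilinearMap.compContinuousLinearMapL _).continuous.comp
    (hg.continuous_iteratedFDeriv (hk j))

lemma fderiv_slice {G : ℝ × E d → ℝ} (hG : ContDiff ℝ ∞ G) (t : ℝ) (x w : E d) :
    fderiv ℝ (fun y => G (t, y)) x w = dv (0, w) G (t, x) := by
  have := ((hG.differentiable (by simp) (t, x)).hasFDerivAt.comp x
    (hasFDerivAt_prodMk_right t x)).fderiv
  exact (congrArg (fun A : E d →L[ℝ] ℝ => A w) this).trans (by simp [dv])

lemma fderiv_comp {g : E d → E d} {x : E d} (hg : DifferentiableAt ℝ g x) (w : E d) (k : Fin d) :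
    fderiv ℝ g x w k = fderiv ℝ (fun y => g y k) x w :=
  (congrArg (fun A : E d →L[ℝ] ℝ => A w)
    ((EuclideanSpace.proj k : E d →L[ℝ] ℝ).hasFDerivAt.comp x hg.hasFDerivAt).fderiv).symm

lemma fderiv_vec {U : Fin d → ℝ × E d → ℝ} (hU : ∀ k, ContDiff ℝ ∞ (U k)) (t : ℝ) (x w : E d)
    (k : Fin d) : fderiv ℝ (vec U t) x w k = dv (0, w) (U k) (t, x) := by
  rw [fderiv_comp (g := vec U t) (((vec_smooth hU).comp (contDiff_prodMk_right t)).differentiable (by simp) x),
    ← fderiv_slice (hU k)]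
  rfl

lemma hasDerivWithinAt_E {X : ℝ → E d} {w : E d} {s : Set ℝ} {t : ℝ} :
    HasDerivWithinAt X w s t ↔ ∀ k, HasDerivWithinAt (fun r => X r k) (w k) s t :=
  ⟨fun h k => (EuclideanSpace.proj k : E d →L[ℝ] ℝ).hasFDerivAt.comp_hasDerivWithinAt _ h,
    fun h => (PiLp.continuousLinearEquiv 2 ℝ fun _ : Fin d => ℝ).symm.hasFDerivAt.comp_hasDerivWithinAt
      _ (hasDerivWithinAt_pi.2 h)⟩

theorem solves_vec (ν T : ℝ) {U : Fin d → ℝ × E d → ℝ} (hU : ∀ k, ContDiff ℝ ∞ (U k))
    (hp : ∀ k t, Per fun x => U k (t, x)) (hdiv : ∀ k z, dv (0, ev k) (U k) z = 0) :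
    Solves ν (vec (ns ν U)) T (vec U) 0 := by
  refine ⟨vec fun k => dv (1, 0) (U k), reg_of_smooth (vec_smooth hU) (fun t x i => ?_) _ _,
    reg_of_smooth (vec_smooth fun k => dv_smooth (hU k) _) (fun t x i => ?_) _ _,
    reg_of_smooth contDiff_const (fun _ _ _ => rfl) _ _, fun t _ => ⟨by simp, fun x => ⟨?_, ?_, ?_⟩⟩⟩
  · ext k
    exact hp k t x i
  · ext k
    have e : (fun z : ℝ × E d => U k (z + (0, ev i))) = U k := by
      funext z
      show U k (z.1 + 0, z.2 + ev i) = _
      rw [add_zero]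
      exact hp k z.1 z.2 i
    have := fderiv_comp_add_right (𝕜 := ℝ) (f := U k) (x := (t, x)) (0, ev i)
    rw [e] at this
    simp [vec, dv, this]
  · refine hasDerivWithinAt_E.2 fun k => HasDerivAt.hasDerivWithinAt ?_
    exact ((hU k).differentiable (by simp) (t, x)).hasFDerivAt.comp_hasDerivAt t
      ((hasDerivAt_id t).prodMk (hasDerivAt_const t x))
  · ext k
    have e : ∀ j, fderiv ℝ (fderiv ℝ (vec U t)) x (ev j) (ev j) k
        = dv (0, ev j) (dv (0, ev j) (U k)) (t, x) := by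
      intro j
      have h2 : DifferentiableAt ℝ (fderiv ℝ (vec U t)) x :=
        (((vec_smooth hU).comp (contDiff_prodMk_right t)).fderiv_right (m := ∞)
          le_rfl).differentiable (by simp) x
      rw [← fderiv_slice (dv_smooth (hU k) _)]
      simp only [← fderiv_vec hU]
      exact (congrArg (fun A : E d →L[ℝ] ℝ => A (ev j)) (((EuclideanSpace.proj k).comp
        (.apply ℝ (E d) (ev j)) : _ →L[ℝ] ℝ).hasFDerivAt.comp x h2.hasFDerivAt).fderiv).symm
    simp only [PiLp.add_apply, PiLp.neg_apply, PiLp.smul_apply, clm_apply _ (vec U t x), lap_apply,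
      grad_apply, e, fderiv_vec hU, smul_eq_mul]
    simp [vec, ns]
  · simp only [trace_apply, fderiv_vec hU, hdiv, Finset.sum_const_zero]

end Vale.Agent.N113P
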