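import Vale.Agent.N113P.Bridge
import Vale.Agent.N113.TermCalc
import Vale.Agent.N113.CompPrim

/-!
# P113: calculus of admissible terms in dimension `d`
-/

open Set
open scoped ContDiff

namespace Vale.Agent.N113P

open Vale.Agent.N113 (prodD scaleC kappa per PR kappa_pos)
open Vale.Agent.N113.TermCalc (hasDerivAt_prod prodD_wf prodD_isEmpty contDiff_prod_per)

variable {d : ℕ}

/-- Product of bumps. -/
noncomputable def tp (l : List Bump) (t : ℝ) : ℝ := (l.map fun g => N113.Bump.eval g t).prod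

/-- Product of periodizations. -/
noncomputable def pp (l : List Bump) (y : ℝ) : ℝ := (l.map fun g => per (N113.Bump.eval g) y).prod

/-- The constant of a term. -/
noncomputable def cf (ν : ℝ) (c : ℚ × ℕ × ℤ × List ℚ) : ℝ :=
  c.1 * ν ^ c.2.1 * kappa ^ c.2.2.1 * (c.2.2.2.map fun r : ℚ => Real.log r).prod

lemma val_eq (ν : ℝ) (τ : Term d) (t : ℝ) (x : E d) :
    τ.val ν t x = cf ν τ.1 * (tp τ.2.1.1 t * pp τ.2.1.2 t) * ∏ i, pp (τ.2.2 i) (x i) := by
  have e : Bump.fn = N113.Bump.eval := by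
    funext g s
    rcases g with ⟨k, j, a, b⟩ | ⟨k, l, a, b⟩ <;> rfl
  simp only [Term.val, perProd, e]
  rfl

/-- Well formed terms. -/
def WF (τ : Term d) : Prop :=
  (∀ r ∈ τ.1.2.2.2, 0 < r) ∧ (∀ g ∈ τ.2.1.1, N113.Bump.WF g) ∧ (∀ g ∈ τ.2.1.2, N113.Bump.WF g) ∧
    ∀ i, ∀ g ∈ τ.2.2 i, N113.Bump.WF g

/-- The sum of a list of terms. -/
noncomputable def sv (ν : ℝ) (L : List (Term d)) (z : ℝ × E d) : ℝ :=
  (L.map fun τ => τ.val ν z.1 z.2).sum

/-- Formal time derivative. -/
def dT (τ : Term d) : List (Term d) :=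
  (prodD τ.2.1.1).map (fun p => (scaleC p.1 τ.1, (p.2, τ.2.1.2), τ.2.2)) ++
    (prodD τ.2.1.2).map (fun p => (scaleC p.1 τ.1, (τ.2.1.1, p.2), τ.2.2))

/-- Formal partial derivative. -/
def dX (j : Fin d) (τ : Term d) : List (Term d) :=
  (prodD (τ.2.2 j)).map (fun p => (scaleC p.1 τ.1, τ.2.1, Function.update τ.2.2 j p.2))

/-- Multiplication by `-ν`. -/
def negNu (τ : Term d) : Term d := ((-τ.1.1, τ.1.2.1 + 1, τ.1.2.2), τ.2)

/-- The product of two terms. -/
def mulT (τ σ : Term d) : Term d :=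
  ((τ.1.1 * σ.1.1, τ.1.2.1 + σ.1.2.1, τ.1.2.2.1 + σ.1.2.2.1, τ.1.2.2.2 ++ σ.1.2.2.2),
    (τ.2.1.1 ++ σ.2.1.1, τ.2.1.2 ++ σ.2.1.2), fun i => τ.2.2 i ++ σ.2.2 i)

/-- The terms of the Navier-Stokes operator. -/
def nsOf (U : Fin d → List (Term d)) (i : Fin d) : List (Term d) :=
  (U i).flatMap dT ++ (List.finRange d).flatMap fun j =>
    ((U j).flatMap fun τ => ((U i).flatMap (dX j)).map (mulT τ)) ++
      (((U i).flatMap (dX j)).flatMap (dX j)).map negNu

variable {ν : ℝ}

lemma sv_nil (z : ℝ × E d) : sv ν [] z = 0 := rfl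

lemma sv_cons (τ : Term d) (L : List (Term d)) (z : ℝ × E d) :
    sv ν (τ :: L) z = τ.val ν z.1 z.2 + sv ν L z := by simp [sv]

lemma sv_append (L L' : List (Term d)) (z : ℝ × E d) : sv ν (L ++ L') z = sv ν L z + sv ν L' z := by
  simp [sv]

lemma sv_flatMap {α : Type} (l : List α) (F : α → List (Term d)) (z : ℝ × E d) :
    sv ν (l.flatMap F) z = (l.map fun a => sv ν (F a) z).sum := by
  induction l with
  | nil => rfl
  | cons a l ih => rw [List.flatMap_cons, sv_append, ih, List.map_cons, List.sum_cons]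

lemma cf_scaleC (q : ℚ) (c : ℚ × ℕ × ℤ × List ℚ) : cf ν (scaleC q c) = q * cf ν c := by
  simp only [cf, scaleC]
  push_cast
  ring

lemma sv_negNu (L : List (Term d)) (z : ℝ × E d) : sv ν (L.map negNu) z = -ν * sv ν L z := by
  simp only [sv, List.map_map, ← List.sum_map_mul_left]
  congr 2
  funext τ
  simp only [Function.comp, val_eq, negNu, cf]
  push_cast
  ring

lemma sv_mulT (τ : Term d) (L : List (Term d)) (z : ℝ × E d) :
    sv ν (L.map (mulT τ)) z = τ.val ν z.1 z.2 * sv ν L z := by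
  simp only [sv, List.map_map, ← List.sum_map_mul_left]
  congr 2
  funext σ
  simp only [Function.comp, val_eq, mulT, cf, tp, pp, List.map_append, List.prod_append,
    Finset.prod_mul_distrib, pow_add, zpow_add₀ kappa_pos.ne']
  push_cast
  ring

lemma val_time {τ : Term d} (h : WF τ) (t : ℝ) (x : E d) :
    HasDerivAt (fun s => τ.val ν s x) (sv ν (dT τ) (t, x)) t := by
  have h1 := hasDerivAt_prod N113.Bump.eval t τ.2.1.1 fun g _ => N113.Bump.hasDerivAt g t
  have h2 := hasDerivAt_prod (fun g => per (N113.Bump.eval g)) t τ.2.1.2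
    fun g hg => N113.Bump.hasDerivAt_per (h.2.2.1 g hg) t
  have h3 := ((h1.mul h2).const_mul (cf ν τ.1)).mul_const (∏ i, pp (τ.2.2 i) (x i))
  simp only [val_eq]
  refine HasDerivAt.congr_deriv h3 (Eq.symm ?_)
  simp only [dT, sv, List.map_append, List.map_map, List.sum_append, Function.comp_def,
    val_eq, cf_scaleC, tp, pp]
  rw [mul_add, add_mul]
  congr 1
  · rw [← List.sum_map_mul_right, ← List.sum_map_mul_left, ← List.sum_map_mul_right]
    congr 2
    funext p
    ring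
  · rw [← List.sum_map_mul_left, ← List.sum_map_mul_left, ← List.sum_map_mul_right]
    congr 2
    funext p
    ring

lemma val_space {τ : Term d} (h : WF τ) (t : ℝ) (x : E d) (j : Fin d) :
    HasDerivAt (fun s : ℝ => τ.val ν t (x + s • ev j)) (sv ν (dX j τ) (t, x)) 0 := by
  have h1 := hasDerivAt_prod (fun g => per (N113.Bump.eval g)) (x j) (τ.2.2 j)
    fun g hg => N113.Bump.hasDerivAt_per (h.2.2.2 j g hg) _
  have h2 : HasDerivAt (fun s : ℝ => x j + s) 1 0 := (hasDerivAt_id (0 : ℝ)).const_add _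
  have h3 := HasDerivAt.comp_of_eq (0 : ℝ) h1 h2 (by simp)
  have h4 := (h3.mul_const (∏ i ∈ Finset.univ.erase j, pp (τ.2.2 i) (x i))).const_mul
    (cf ν τ.1 * (tp τ.2.1.1 t * pp τ.2.1.2 t))
  refine HasDerivAt.congr_deriv (h4.congr_of_eventuallyEq (Filter.Eventually.of_forall ?_))
    (Eq.symm ?_)
  · intro s
    simp only [val_eq, Function.comp_def]
    congr 1
    rw [← Finset.mul_prod_erase Finset.univ _ (Finset.mem_univ j)]
    congr 1
    · simp [pp]
    · refine Finset.prod_congr rfl fun i hi => ?_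
      simp [Finset.ne_of_mem_erase hi]
  · simp only [dX, sv, List.map_map, Function.comp_def, val_eq, cf_scaleC, mul_one]
    rw [← List.sum_map_mul_right, ← List.sum_map_mul_left]
    congr 2
    funext p
    rw [← Finset.mul_prod_erase Finset.univ _ (Finset.mem_univ j)]
    have h5 : ∏ i ∈ Finset.univ.erase j, pp (Function.update τ.2.2 j p.2 i) (x i)
        = ∏ i ∈ Finset.univ.erase j, pp (τ.2.2 i) (x i) :=
      Finset.prod_congr rfl fun i hi => by rw [Function.update_of_ne (Finset.ne_of_mem_erase hi)]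
    rw [h5, Function.update_self]
    simp only [pp]
    ring

/-! ## Uniformly bounded families -/

section UB

variable {ι V W F : Type} [NormedAddCommGroup V] [NormedSpace ℝ V] [NormedAddCommGroup W]
  [NormedSpace ℝ W] [NormedAddCommGroup F] [NormedSpace ℝ F]

/-- A family of smooth functions with uniformly bounded derivatives of each order. -/
structure UB (G : ι → V → F) : Prop where
  smooth : ∀ i, ContDiff ℝ ∞ (G i)
  bd : ∀ n : ℕ, ∃ C, ∀ i z, ‖iteratedFDeriv ℝ n (G i) z‖ ≤ C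

lemma le_inf (n : ℕ) : (n : WithTop ℕ∞) ≤ ∞ := by exact_mod_cast le_top

lemma UB.add {G H : ι → V → F} (hG : UB G) (hH : UB H) : UB fun i z => G i z + H i z := by
  refine ⟨fun i => (hG.1 i).add (hH.1 i), fun n => ?_⟩
  obtain ⟨C, hC⟩ := hG.2 n
  obtain ⟨D, hD⟩ := hH.2 n
  refine ⟨C + D, fun i z => ?_⟩
  rw [fun_iteratedFDeriv_add_apply ((hG.1 i).of_le (le_inf n)).contDiffAt
    ((hH.1 i).of_le (le_inf n)).contDiffAt]
  exact norm_add_le_of_le (hC i z) (hD i z)

lemma UB.smul {G : ι → V → ℝ} {H : ι → V → F} (hG : UB G) (hH : UB H) :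
    UB fun i z => G i z • H i z := by
  refine ⟨fun i => (hG.1 i).smul (hH.1 i), fun n => ?_⟩
  choose C hC using hG.2
  choose D hD using hH.2
  refine ⟨_, fun i z => (norm_iteratedFDeriv_smul_le (hG.1 i) (hH.1 i) z (le_inf n)).trans
    (Finset.sum_le_sum (g := fun j => n.choose j * C j * D (n - j)) fun j _ => ?_)⟩
  have := (norm_nonneg _).trans (hC j i z)
  gcongr
  exacts [hC j i z, hD _ i z]

lemma UB.mul {G H : ι → V → ℝ} (hG : UB G) (hH : UB H) : UB fun i z => G i z * H i z := hG.smul hH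

lemma UB.const {c : ι → F} {C : ℝ} (h : ∀ i, ‖c i‖ ≤ C) : UB fun i (_ : V) => c i := by
  refine ⟨fun i => contDiff_const, fun n => ⟨max C 0, fun i z => ?_⟩⟩
  cases n with
  | zero => rw [norm_iteratedFDeriv_zero]; exact (h i).trans (le_max_left _ _)
  | succ n => simp [iteratedFDeriv_succ_const]

lemma UB.const' (c : F) : UB fun (_ : ι) (_ : V) => c := UB.const fun _ => le_rfl

lemma UB.sum {α : Type} {G : α → ι → V → F} (h : ∀ a, UB (G a)) (S : Finset α) :
    UB fun i z => ∑ a ∈ S, G a i z := by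
  classical
  induction S using Finset.induction_on with
  | empty => simpa using UB.const' (0 : F)
  | insert a S ha ih => simpa only [Finset.sum_insert ha] using (h a).add ih

lemma UB.comp {G : ι → V → F} (hG : UB G) {L : ι → W →L[ℝ] V} (hL : ∀ i, ‖L i‖ ≤ 1) :
    UB fun i z => G i (L i z) := by
  refine ⟨fun i => (hG.1 i).comp (L i).contDiff, fun n => ?_⟩
  obtain ⟨C, hC⟩ := hG.2 n
  refine ⟨C, fun i z => ?_⟩
  have := (L i).iteratedFDeriv_comp_right (hG.1 i) z (le_inf n)
  rw [show (fun z => G i (L i z)) = G i ∘ L i from rfl, this]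
  refine (ContinuousMultilinearMap.norm_compContinuousLinearMap_le _ _).trans
    ((mul_le_of_le_one_right (norm_nonneg _) ?_).trans (hC i _))
  exact Finset.prod_le_one (fun _ _ => norm_nonneg _) fun _ _ => hL i

lemma UB.dv {G : ι → ℝ × E d → ℝ} (hG : UB G) (w : ℝ × E d) : UB fun i => dv w (G i) := by
  refine ⟨fun i => dv_smooth (hG.1 i) w, fun n => ?_⟩
  obtain ⟨C, hC⟩ := hG.2 (n + 1)
  refine ⟨‖w‖ * C, fun i z => (norm_iteratedFDeriv_clm_apply_const
    ((hG.1 i).fderiv_right (m := ∞) le_rfl).contDiffAt (le_inf n)).trans ?_⟩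
  rw [norm_iteratedFDeriv_fderiv]
  exact mul_le_mul_of_nonneg_left (hC i z) (norm_nonneg _)

lemma UB.vec {U : Fin d → ι → ℝ × E d → ℝ} (h : ∀ k, UB (U k)) :
    UB fun i => (vec fun k => U k i).uncurry := by
  convert UB.sum (fun k => (h k).smul (UB.const' (ev k))) Finset.univ using 3 with i z
  ext k
  simp [N113P.vec, Pi.single_apply, Function.uncurry]

lemma ub_tp {l : List Bump} (h : ∀ g ∈ l, N113.Bump.WF g) : UB fun _ : ι => tp l := by
  induction l with
  | nil => exact UB.const' 1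
  | cons g l ih =>
    refine UB.mul ⟨fun _ => N113.Bump.contDiff g, fun n => ?_⟩
      (ih fun g hg => h g (List.mem_cons_of_mem _ hg))
    obtain ⟨R, hR⟩ := N113.Bump.bddSupp (h g List.mem_cons_self)
    have hs : HasCompactSupport (N113.Bump.eval g) :=
      HasCompactSupport.intro (isCompact_closedBall 0 R) fun s hs => hR s (by simpa using hs)
    obtain ⟨C, hC⟩ := (hs.iteratedFDeriv (𝕜 := ℝ) n).exists_bound_of_continuous
      ((N113.Bump.contDiff g).continuous_iteratedFDeriv (le_inf n))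
    exact ⟨C, fun _ => hC⟩

lemma ub_pp {l : List Bump} (h : ∀ g ∈ l, N113.Bump.WF g) : UB fun _ : ι => pp l := by
  refine ⟨fun _ => contDiff_prod_per h, fun n => ?_⟩
  have hp : Function.Periodic (iteratedFDeriv ℝ n (pp l)) 1 := fun y => by
    rw [← iteratedFDeriv_comp_add_right]
    congr 1
    funext s
    simpa [pp] using congrArg List.prod (List.map_congr_left (l := l) fun g _ =>
      N113.per_add_int (N113.Bump.eval g) s 1)
  obtain ⟨C, hC⟩ := (hp.isBounded_of_continuous one_ne_zero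
    ((contDiff_prod_per h).continuous_iteratedFDeriv (le_inf n))).exists_norm_le
  exact ⟨C, fun _ z => hC _ ⟨z, rfl⟩⟩

lemma ub_sv {L : List (Term d)} (h : ∀ τ ∈ L, WF τ) : UB fun _ : ι => sv ν L := by
  induction L with
  | nil => exact UB.const' 0
  | cons τ L ih =>
    obtain ⟨-, h1, h2, h3⟩ := h τ List.mem_cons_self
    have e : ∀ S : Finset (Fin d), UB fun (_ : ι) (z : ℝ × E d) => ∏ i ∈ S, pp (τ.2.2 i) (z.2 i) := by
      intro S
      induction S using Finset.induction_on with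
      | empty => simpa using UB.const' (1 : ℝ)
      | insert a S ha ih =>
        simp only [Finset.prod_insert ha]
        refine UB.mul ((ub_pp (h3 a)).comp (L := fun _ => (EuclideanSpace.proj a).comp
          (ContinuousLinearMap.snd ℝ ℝ (E d))) fun _ => ?_) ih
        refine ContinuousLinearMap.opNorm_le_bound _ zero_le_one fun z => ?_
        rw [one_mul]
        exact (PiLp.norm_apply_le z.2 a).trans (norm_snd_le z)
    have f := fun _ : ι => ContinuousLinearMap.norm_fst_le ℝ ℝ (E d)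
    convert (((UB.const' (cf ν τ.1)).mul (((ub_tp h1).comp f).mul ((ub_pp h2).comp f))).mul
      (e Finset.univ)).add (ih fun τ hτ => h τ (List.mem_cons_of_mem _ hτ)) using 3 with i z
    rw [sv_cons, val_eq]
    rfl

end UB

lemma sv_smooth {L : List (Term d)} (h : ∀ τ ∈ L, WF τ) : ContDiff ℝ ∞ (sv ν L) :=
  (ub_sv h).1 ()

lemma dv_eq {G : ℝ × E d → ℝ} (hG : ContDiff ℝ ∞ G) {γ : ℝ → ℝ × E d} {w : ℝ × E d} {s c : ℝ}
    (hγ : HasDerivAt γ w s) (h : HasDerivAt (fun r => G (γ r)) c s) : dv w G (γ s) = c :=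
  ((hG.differentiable (by simp) _).hasFDerivAt.comp_hasDerivAt s hγ).unique h

lemma dv_time {L : List (Term d)} (h : ∀ τ ∈ L, WF τ) : dv (1, 0) (sv ν L) = sv ν (L.flatMap dT) := by
  funext ⟨t, x⟩
  refine dv_eq (sv_smooth h) ((hasDerivAt_id t).prodMk (hasDerivAt_const t x)) ?_
  induction L with
  | nil => exact hasDerivAt_const _ _
  | cons τ L ih =>
    simp only [sv_cons, List.flatMap_cons, sv_append]
    exact (val_time (h τ List.mem_cons_self) t x).add (ih fun τ hτ => h τ (List.mem_cons_of_mem _ hτ))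

lemma dv_space {L : List (Term d)} (h : ∀ τ ∈ L, WF τ) (j : Fin d) :
    dv (0, ev j) (sv ν L) = sv ν (L.flatMap (dX j)) := by
  funext ⟨t, x⟩
  have h1 : HasDerivAt (fun s : ℝ => x + s • ev j) (ev j) 0 := by
    simpa using ((hasDerivAt_id (0 : ℝ)).smul_const (ev j)).const_add x
  have := dv_eq (sv_smooth (ν := ν) h) ((hasDerivAt_const 0 t).prodMk h1)
    (c := sv ν (L.flatMap (dX j)) (t, x)) ?_
  · simpa using this
  induction L with
  | nil => exact hasDerivAt_const _ _
  | cons τ L ih =>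
    simp only [sv_cons, List.flatMap_cons, sv_append]
    exact (val_space (h τ List.mem_cons_self) t x j).add
      (ih fun τ hτ => h τ (List.mem_cons_of_mem _ hτ))

/-! ## Invariants of the formal operations -/

/-- The bump and all its derivatives vanish after time `T`. -/
def End (T : ℚ) : Bump → Prop
  | .inl (_, _, a, b) => 0 < a ∧ b + 1 < a * T
  | .inr (_, l, a, b) => 0 < a ∧ 0 ≤ l ∧ b + l + 1 < a * T

variable {T : ℚ}

lemma End.D {g : Bump} (h : End T g) : ∀ p ∈ N113.Bump.D g, End T p.2 := by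
  rcases g with ⟨k, j, a, b⟩ | ⟨k, l, a, b⟩ <;>
    simp only [N113.Bump.D, List.mem_cons, List.not_mem_nil, or_false, forall_eq_or_imp, forall_eq]
  · exact ⟨h, h⟩
  · exact ⟨h, ⟨h.1, by linarith [h.2.1, h.2.2]⟩, h.1, h.2.2⟩

lemma End.eval {g : Bump} (h : End T g) {t : ℝ} (ht : T ≤ t) : N113.Bump.eval g t = 0 := by
  rcases g with ⟨k, j, a, b⟩ | ⟨k, l, a, b⟩
  · have ha : (0 : ℝ) < a := by exact_mod_cast h.1
    have hb : (b : ℝ) + 1 < a * T := by exact_mod_cast h.2
    have h2 : 1 < (a : ℝ) * t - b := by nlinarith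
    simp only [N113.Bump.eval]
    rw [N113.iteratedDeriv_rho_eq_zero j (h2.trans_le (le_abs_self _)), mul_zero]
  · have ha : (0 : ℝ) < a := by exact_mod_cast h.1
    have hl : (0 : ℝ) ≤ l := by exact_mod_cast h.2.1
    have hb : (b : ℝ) + l + 1 < a * T := by exact_mod_cast h.2.2
    simp only [N113.Bump.eval]
    rw [N113.plateau_eq_zero hl (Or.inr (by nlinarith)), mul_zero]

lemma prodD_end {l : List Bump} {p : ℚ × List Bump} (hp : p ∈ prodD l) {g : Bump} (hg : g ∈ l)
    (h : End T g) : ∃ g' ∈ p.2, End T g' := by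
  induction l generalizing p with
  | nil => simp at hg
  | cons b l ih =>
    simp only [prodD, List.mem_append, List.mem_map] at hp
    rcases hp with ⟨q, hq, rfl⟩ | ⟨q, hq, rfl⟩
    · rcases List.mem_cons.1 hg with rfl | h'
      · exact ⟨_, List.mem_cons_self, h.D q hq⟩
      · exact ⟨g, List.mem_cons_of_mem _ h', h⟩
    · rcases List.mem_cons.1 hg with rfl | h'
      · exact ⟨g, List.mem_cons_self, h⟩
      · obtain ⟨g', h1, h2⟩ := ih hq h'
        exact ⟨g', List.mem_cons_of_mem _ h1, h2⟩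

/-- Well formed, and periodic or zero after time `T`. -/
def Inv (T : ℚ) (τ : Term d) : Prop := WF τ ∧ (τ.2.1.1 = [] ∨ ∃ g ∈ τ.2.1.1, End T g)

lemma Inv.dT {τ σ : Term d} (h : Inv T τ) (hσ : σ ∈ dT τ) : Inv T σ := by
  simp only [N113P.dT, List.mem_append, List.mem_map] at hσ
  rcases hσ with ⟨p, hp, rfl⟩ | ⟨p, hp, rfl⟩
  · refine ⟨⟨h.1.1, prodD_wf h.1.2.1 p hp, h.1.2.2⟩, ?_⟩
    rcases h.2 with h1 | ⟨g, h1, h2⟩
    · simp [h1, prodD] at hp
    · exact Or.inr (prodD_end hp h1 h2)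
  · exact ⟨⟨h.1.1, h.1.2.1, prodD_wf h.1.2.2.1 p hp, h.1.2.2.2⟩, h.2⟩

lemma WF.dX {τ σ : Term d} {j : Fin d} (h : WF τ) (hσ : σ ∈ dX j τ) : WF σ := by
  obtain ⟨p, hp, rfl⟩ := List.mem_map.1 hσ
  refine ⟨h.1, h.2.1, h.2.2.1, fun i => ?_⟩
  by_cases hi : i = j
  · subst hi
    simpa using prodD_wf (h.2.2.2 i) p hp
  · simpa [Function.update_of_ne hi] using h.2.2.2 i

lemma Inv.dX {τ σ : Term d} {j : Fin d} (h : Inv T τ) (hσ : σ ∈ dX j τ) : Inv T σ := by
  refine ⟨h.1.dX hσ, ?_⟩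
  obtain ⟨p, hp, rfl⟩ := List.mem_map.1 hσ
  exact h.2

lemma Inv.mul {τ σ : Term d} (h : Inv T τ) (h' : Inv T σ) : Inv T (mulT τ σ) := by
  refine ⟨⟨?_, ?_, ?_, fun i => ?_⟩, ?_⟩
  · exact fun r hr => (List.mem_append.1 hr).elim (h.1.1 r) (h'.1.1 r)
  · exact fun r hr => (List.mem_append.1 hr).elim (h.1.2.1 r) (h'.1.2.1 r)
  · exact fun r hr => (List.mem_append.1 hr).elim (h.1.2.2.1 r) (h'.1.2.2.1 r)
  · exact fun r hr => (List.mem_append.1 hr).elim (h.1.2.2.2 i r) (h'.1.2.2.2 i r)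
  · rcases h.2 with h1 | ⟨g, h1, h2⟩
    · rcases h'.2 with h3 | ⟨g, h3, h4⟩
      · exact Or.inl (by simp [mulT, h1, h3])
      · exact Or.inr ⟨g, List.mem_append_right _ h3, h4⟩
    · exact Or.inr ⟨g, List.mem_append_left _ h1, h2⟩

lemma inv_nsOf {U : Fin d → List (Term d)} (h : ∀ i, ∀ τ ∈ U i, Inv T τ) (i : Fin d) :
    ∀ σ ∈ nsOf U i, Inv T σ := by
  intro σ hσ
  simp only [nsOf, List.mem_append, List.mem_flatMap, List.mem_map] at hσ
  rcases hσ with ⟨τ, h1, h2⟩ | ⟨j, -, ⟨τ, h1, τ', ⟨τ'', h2, h3⟩, rfl⟩ | ⟨τ, ⟨τ', ⟨τ'', h1, h2⟩, h3⟩, rfl⟩⟩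
  · exact (h i τ h1).dT h2
  · exact (h j τ h1).mul ((h i τ'' h2).dX h3)
  · exact (((h i τ'' h1).dX h2).dX h3 : Inv T τ)

/-- The periodic terms of a list. -/
def fp (L : List (Term d)) : List (Term d) := L.filter (·.2.1.1 = [])

lemma fp_flatMap {F : Term d → List (Term d)} (h : ∀ τ, ∀ σ ∈ F τ, σ.2.1.1 = [] ↔ τ.2.1.1 = [])
    (U : List (Term d)) : fp (U.flatMap F) = (fp U).flatMap F := by
  unfold fp
  induction U with
  | nil => rfl
  | cons τ U ih =>
    rw [List.flatMap_cons, List.filter_append, ih]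
    by_cases hp : τ.2.1.1 = []
    · rw [List.filter_cons_of_pos (by simpa using hp), List.flatMap_cons, List.filter_eq_self.2]
      exact fun σ hσ => by simpa using (h τ σ hσ).2 hp
    · rw [List.filter_cons_of_neg (by simpa using hp), List.filter_eq_nil_iff.2, List.nil_append]
      exact fun σ hσ => by simpa using mt (h τ σ hσ).1 hp

lemma fp_mul (U W : List (Term d)) :
    fp (U.flatMap fun τ => W.map (mulT τ)) = (fp U).flatMap fun τ => (fp W).map (mulT τ) := by
  unfold fp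
  induction U with
  | nil => rfl
  | cons τ U ih =>
    rw [List.flatMap_cons, List.filter_append, ih, List.filter_map]
    by_cases hp : τ.2.1.1 = []
    · rw [List.filter_cons_of_pos (by simpa using hp), List.flatMap_cons]
      congr 3
      funext σ
      simp [mulT, hp]
    · rw [List.filter_cons_of_neg (by simpa using hp), List.filter_eq_nil_iff.2, List.map_nil,
        List.nil_append]
      intro σ _
      simp [mulT, hp]

lemma fp_nsOf (U : Fin d → List (Term d)) (i : Fin d) :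
    fp (nsOf U i) = nsOf (fun j => fp (U j)) i := by
  have hx : ∀ j (L : List (Term d)), fp (L.flatMap (dX j)) = (fp L).flatMap (dX j) := fun j =>
    fp_flatMap fun τ σ hσ => by
      obtain ⟨p, -, rfl⟩ := List.mem_map.1 hσ
      rfl
  have ht : fp ((U i).flatMap dT) = (fp (U i)).flatMap dT := fp_flatMap (fun τ σ hσ => by
    simp only [dT, List.mem_append, List.mem_map] at hσ
    rcases hσ with ⟨p, hp, rfl⟩ | ⟨p, hp, rfl⟩
    · simp only [← List.isEmpty_iff, prodD_isEmpty hp]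
    · rfl) _
  have hn : ∀ L : List (Term d), fp (L.map negNu) = (fp L).map negNu := fun L => List.filter_map
  have ha : ∀ L L' : List (Term d), fp (L ++ L') = fp L ++ fp L' := fun L L' => List.filter_append _ _
  have hf : ∀ F : Fin d → List (Term d), fp ((List.finRange d).flatMap F)
      = (List.finRange d).flatMap fun j => fp (F j) := fun F => List.filter_flatMap
  simp only [nsOf, ha, hf, ht, fp_mul, hn, hx]

set_option synthInstance.maxSize 1024 in
theorem pr_nsOf {α : Type} [Primcodable α] {U : α → Fin d → List (Term d)}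
    (h : ∀ i, PR fun a => U a i) (i : Fin d) : PR fun a => nsOf (U a) i := by
  have hT : PR (dT (d := d)) := by
    unfold dT
    fun_prop
  have hX : ∀ j : Fin d, PR (dX j) := fun j => by
    unfold dX
    refine PR.map (PR.comp N113.pr_prodD (PR.app (by fun_prop) j)) ?_
    exact PR.pair (by fun_prop) (PR.pair (by fun_prop) (PR.update j (by fun_prop) (by fun_prop)))
  have hN : PR (negNu (d := d)) := by
    unfold negNu
    fun_prop
  have hM : PR fun p : Term d × Term d => mulT p.1 p.2 := by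
    unfold mulT
    refine PR.pair (by fun_prop) (PR.pair (by fun_prop) (PR.pi fun i => ?_))
    exact PR.append (PR.app (by fun_prop) i) (PR.app (by fun_prop) i)
  refine PR.append (PR.flatMap (h i) (PR.comp hT (PR.snd PR.id'))) ?_
  generalize List.finRange d = l
  induction l with
  | nil => exact PR.const _
  | cons j l ih =>
    have h1 : PR fun a => (U a i).flatMap (dX j) := PR.flatMap (h i) (PR.comp (hX j) (PR.snd PR.id'))
    exact PR.append (PR.append (PR.flatMap (h j) (PR.map ⟨h1.out.comp Primrec.fst⟩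
      (PR.comp hM (PR.pair (PR.snd (PR.fst PR.id')) (PR.snd PR.id')))))
      (PR.map (PR.flatMap h1 (PR.comp (hX j) (PR.snd PR.id'))) (PR.comp hN (PR.snd PR.id')))) ih

/-! ## The compiler and the solution -/

theorem compiler_nsOf (ν : ℝ) {U : ℚ × ℚ → Fin d → List (Term d)} (hU : ∀ i, PR fun z => U z i)
    (hinv : ∀ z i, ∀ τ ∈ U z i, Inv T τ) (hK : ∀ z z' i, fp (U z i) = fp (U z' i))
    {e : TM × List ℕ → ℚ × ℚ} (he : Computable e) : Compiler ν fun z => nsOf (U (e z)) := by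
  refine ⟨(PR.pi (pr_nsOf hU)).out.to_comp.comp he, fun z i τ hτ => ?_,
    ⟨T, fun z i τ hτ hp t ht x => ?_⟩, fun M w w' i => ?_⟩
  · have ok : ∀ g : Bump, N113.Bump.WF g → g.Ok := fun g h => by
      rcases g with ⟨k, j, a, b⟩ | ⟨k, l, a, b⟩ <;> exact h
    obtain ⟨h1, h2, h3, h4⟩ := (inv_nsOf (hinv _) i τ hτ).1
    exact ⟨h1, fun g hg => ok g ((List.mem_append.1 hg).elim (h2 g) (h3 g)),
      fun j g hg => ok g (h4 j g hg)⟩
  · obtain ⟨g, h1, h2⟩ := (inv_nsOf (hinv _) i τ hτ).2.resolve_left hp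
    rw [val_eq, tp, List.prod_eq_zero (List.mem_map.2 ⟨_, h1, h2.eval ht⟩)]
    ring
  · exact (fp_nsOf _ i).trans ((congrArg (nsOf · i) (funext (hK _ _))).trans (fp_nsOf _ i).symm)

lemma force_nsOf {U : Fin d → List (Term d)} (h : ∀ i, ∀ τ ∈ U i, WF τ) :
    force ν (nsOf U) = vec (ns ν fun i => sv ν (U i)) := by
  funext t x
  ext i
  have h2 : ∀ j, ∀ τ ∈ (U i).flatMap (dX j), WF τ := fun j τ hτ => by
    obtain ⟨σ, h1, h2⟩ := List.mem_flatMap.1 hτ
    exact (h i σ h1).dX h2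
  show sv ν (nsOf U i) (t, x) = _
  simp only [vec, ns, dv_time (h i), dv_space (h i), dv_space (h2 _), nsOf, sv_append,
    sv_flatMap (List.finRange d), ← Fin.sum_univ_def, sv_negNu, Finset.sum_add_distrib,
    ← Finset.mul_sum]
  simp only [sv_flatMap (U _) fun τ => List.map (mulT τ) _, sv_mulT, List.sum_map_mul_right]
  simp only [sv]
  ring

theorem solves_nsOf (ν T : ℝ) {U : Fin d → List (Term d)} (h : ∀ i, ∀ τ ∈ U i, WF τ)
    (hind : ∀ i, ∀ τ ∈ U i, τ.2.2 i = []) : Solves ν (force ν (nsOf U)) T (force ν U) 0 := by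
  rw [force_nsOf h]
  refine solves_vec ν T (fun k => sv_smooth (h k)) (fun k t x i => ?_) fun k z => ?_
  · refine congrArg List.sum (List.map_congr_left fun τ _ => ?_)
    simp only [val_eq]
    congr 1
    refine Finset.prod_congr rfl fun j _ => congrArg List.prod (List.map_congr_left fun g _ => ?_)
    by_cases hj : j = i
    · simpa [hj] using N113.per_add_int (N113.Bump.eval g) (x i) 1
    · simp [hj]
  · rw [dv_space (h k), List.flatMap_eq_nil_iff.2 fun τ hτ => by simp [dX, hind k τ hτ, prodD]]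
    rfl

theorem detects_nsOf (hν : 0 ≤ ν) {U : Fin d → List (Term d)} (h : ∀ i, ∀ τ ∈ U i, WF τ)
    (hind : ∀ i, ∀ τ ∈ U i, τ.2.2 i = []) (h0 : force ν U 0 = 0) {a lo hi : Fin d → ℚ} {H : Prop}
    (h1 : ∃ X : ℝ → E d, (∀ i, X 0 i = a i) ∧ IsIntegralCurveOn X (force ν U) (Ici 0))
    (h2 : ∀ X : ℝ → E d, (∀ i, X 0 i = a i) → IsIntegralCurveOn X (force ν U) (Ici 0) →
      ((∃ t ≥ 0, ∃ m : Fin d → ℤ, ∀ i, X t i + m i ∈ Ioo (lo i : ℝ) (hi i)) ↔ H)) :
    Detects ν (force ν (nsOf U)) (force ν U) a lo hi H :=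
  ⟨h0, (vec_smooth fun k => sv_smooth (h k)).contDiffOn, ⟨0, contDiffOn_const, fun T hT =>
    ⟨solves_nsOf ν T h hind, fun _ _ hv hs _ ht =>
      hs.unique hν hT (solves_nsOf ν T h hind) (hv.trans h0.symm) ht⟩⟩, h1, h2⟩

end Vale.Agent.N113P
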