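import Mathlib

/-!
# P113: forced Navier-Stokes flows on `𝕋^d`, written as `ℤ^d`-periodic functions on `ℝ^d`
-/

namespace Vale.Agent.N113P

open Set MeasureTheory Turing
open scoped ContDiff

noncomputable section

variable {d : ℕ}

/-- The unit cube, a fundamental domain of `𝕋^d = ℝ^d / ℤ^d`. -/
def cube (d : ℕ) : Set (EuclideanSpace ℝ (Fin d)) := {x | ∀ i, x i ∈ Ioc (0 : ℝ) 1}

/-- On `[0,T]`, `g` is `ℤ^d`-periodic in space, and its spatial derivatives up to order `k` exist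
and are jointly continuous. -/
def Reg {F : Type} [NormedAddCommGroup F] [NormedSpace ℝ F] (k : ℕ) (T : ℝ)
    (g : ℝ → EuclideanSpace ℝ (Fin d) → F) : Prop :=
  (∀ t ∈ Icc 0 T, ContDiff ℝ k (g t) ∧ ∀ x i, g t (x + EuclideanSpace.single i 1) = g t x) ∧
    ∀ j ≤ k, ContinuousOn (fun z : ℝ × EuclideanSpace ℝ (Fin d) => iteratedFDeriv ℝ j (g z.1) z.2)
      {z | z.1 ∈ Icc 0 T}

/-- `(u, p)` is a classical solution on `[0,T] × 𝕋^d` of `∂_t u + (u·∇)u = -∇p + ν Δu + f`,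
`div u = 0`, with `p` of spatial mean zero. -/
def Solves (ν : ℝ) (f : ℝ → EuclideanSpace ℝ (Fin d) → EuclideanSpace ℝ (Fin d)) (T : ℝ)
    (u : ℝ → EuclideanSpace ℝ (Fin d) → EuclideanSpace ℝ (Fin d))
    (p : ℝ → EuclideanSpace ℝ (Fin d) → ℝ) : Prop :=
  ∃ ut : ℝ → EuclideanSpace ℝ (Fin d) → EuclideanSpace ℝ (Fin d),
    Reg 2 T u ∧ Reg 0 T ut ∧ Reg 1 T p ∧ ∀ t ∈ Icc 0 T, ∫ x in cube d, p t x = 0 ∧ ∀ x,
      HasDerivWithinAt (fun s => u s x) (ut t x) (Icc 0 T) t ∧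
      ut t x + fderiv ℝ (u t) x (u t x)
        = -gradient (p t) x + ν • Laplacian.laplacian (u t) x + f t x ∧
      LinearMap.trace ℝ _ (fderiv ℝ (u t) x).toLinearMap = 0

/-- A one-tape Turing machine with states and symbols numbered by naturals (start state `0`,
blank `0`): the list of halting states and the finite table
`(state, symbol) ↦ (state, symbol written, move)`; `some true` is right, `some false` left. -/
abbrev TM := List ℕ × List ((ℕ × ℕ) × ℕ × ℕ × Option Bool)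

/-- One step; there is none in a halting state (a missing table entry changes nothing). -/
def TM.step (M : TM) (c : ℕ × Tape ℕ) : Option (ℕ × Tape ℕ) :=
  if c.1 ∈ M.1 then none else some <|
    match M.2.lookup (c.1, c.2.head) with
    | none => c
    | some (q, b, none) => (q, c.2.write b)
    | some (q, b, some true) => (q, (c.2.write b).move .right)
    | some (q, b, some false) => (q, (c.2.write b).move .left)

/-- `M`, started on the first cell of `w` on an otherwise blank tape, reaches a halting state. -/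
def TM.Halts (M : TM) (w : List ℕ) : Prop :=
  (StateTransition.eval M.step (0, Tape.mk₁ w)).Dom

/-- `ρ`. -/
def rho (s : ℝ) : ℝ := if |s| < 1 then Real.exp (-1 / (1 - s ^ 2)) else 0

/-- `inl (k, j, a, b)` is the bump `s^k ρ^{(j)}(a s - b)`, `inr (k, ℓ, a, b)` the bump
`s^k π_ℓ(a s - b)`. -/
abbrev Bump := (ℕ × ℕ × ℚ × ℚ) ⊕ (ℕ × ℚ × ℚ × ℚ)

/-- The value of a bump; `π_ℓ(r) = σ(r) - σ(r - ℓ)`, `σ(r) = ∫_{-∞}^r ρ`. -/
def Bump.fn : Bump → ℝ → ℝ
  | .inl (k, j, a, b), s => s ^ k * iteratedDeriv j rho (a * s - b)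
  | .inr (k, l, a, b), s =>
      s ^ k * ((∫ r in Iic (a * s - b), rho r) - ∫ r in Iic (a * s - b - l), rho r)

/-- `a ≠ 0` and `ℓ > 0`. -/
def Bump.Ok : Bump → Prop
  | .inl (_, _, a, _) => a ≠ 0
  | .inr (_, l, a, _) => a ≠ 0 ∧ 0 < l

/-- The product of the periodizations `P[g](y) = ∑_m g(y + m)` of a list of bumps. -/
def perProd (l : List Bump) (y : ℝ) : ℝ := (l.map fun g => ∑' m : ℤ, g.fn (y + m)).prod

/-- A term `((q, m, n, r), (A, B), H)`. -/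
abbrev Term (d : ℕ) := (ℚ × ℕ × ℤ × List ℚ) × (List Bump × List Bump) × (Fin d → List Bump)

/-- Its value `q ν^m κ^n ∏ ln r_i · ∏_{g ∈ A} g(t) ∏_{g ∈ B} P[g](t) · ∏_i ∏_{g ∈ H i} P[g](x_i)`,
`κ = ∫ ρ`. -/
def Term.val (ν : ℝ) (τ : Term d) (t : ℝ) (x : EuclideanSpace ℝ (Fin d)) : ℝ :=
  τ.1.1 * ν ^ τ.1.2.1 * (∫ s, rho s) ^ τ.1.2.2.1 * (τ.1.2.2.2.map fun r : ℚ => Real.log r).prod *
    ((τ.2.1.1.map fun g => g.fn t).prod * perProd τ.2.1.2 t) * ∏ i, perProd (τ.2.2 i) (x i)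

/-- The force whose `i`-th component is the sum of the terms `L i`. -/
def force (ν : ℝ) (L : Fin d → List (Term d)) (t : ℝ) (x : EuclideanSpace ℝ (Fin d)) :
    EuclideanSpace ℝ (Fin d) :=
  WithLp.toLp 2 fun i => ((L i).map fun τ => τ.val ν t x).sum

/-- `C` is a force compiler; the periodic terms are those with `A = []`. -/
structure Compiler (ν : ℝ) (C : TM × List ℕ → Fin d → List (Term d)) : Prop where
  computable : Computable C
  ok : ∀ z i, ∀ τ ∈ C z i, (∀ r ∈ τ.1.2.2.2, 0 < r) ∧ (∀ g ∈ τ.2.1.1 ++ τ.2.1.2, g.Ok) ∧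
    ∀ j, ∀ g ∈ τ.2.2 j, g.Ok
  vanish : ∃ T₀ : ℝ, ∀ z i, ∀ τ ∈ C z i, τ.2.1.1 ≠ [] → ∀ t ≥ T₀, ∀ x, τ.val ν t x = 0
  periodic : ∀ M w w' i, (C (M, w) i).filter (·.2.1.1 = []) = (C (M, w') i).filter (·.2.1.1 = [])

/-- `u` is the velocity of a global smooth solution from rest, unique among classical solutions on
each `[0,T]`, and the trajectory of `a` exists and meets the image in `𝕋^d` of the open box with
corners `lo`, `hi` if and only if `H` holds. -/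
def Detects (ν : ℝ) (f u : ℝ → EuclideanSpace ℝ (Fin d) → EuclideanSpace ℝ (Fin d))
    (a lo hi : Fin d → ℚ) (H : Prop) : Prop :=
  u 0 = 0 ∧ ContDiffOn ℝ ∞ u.uncurry {z | 0 ≤ z.1} ∧
  (∃ p : ℝ → EuclideanSpace ℝ (Fin d) → ℝ, ContDiffOn ℝ ∞ p.uncurry {z | 0 ≤ z.1} ∧
    ∀ T > 0, Solves ν f T u p ∧
      ∀ v q, v 0 = 0 → Solves ν f T v q → ∀ t ∈ Icc 0 T, v t = u t ∧ q t = p t) ∧
  (∃ X : ℝ → EuclideanSpace ℝ (Fin d), (∀ i, X 0 i = a i) ∧ IsIntegralCurveOn X u (Ici 0)) ∧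
  ∀ X : ℝ → EuclideanSpace ℝ (Fin d), (∀ i, X 0 i = a i) → IsIntegralCurveOn X u (Ici 0) →
    ((∃ t ≥ 0, ∃ m : Fin d → ℤ, ∀ i, X t i + m i ∈ Ioo (lo i : ℝ) (hi i)) ↔ H)

end

end Vale.Agent.N113P
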