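import Vale.Agent.N113P.Defs
import Vale.Agent.N113.Univ

/-!
# P113: halting of table machines is recursively enumerable; a universal machine
-/

namespace Vale.Agent.N113P

open Turing StateTransition
open Vale.Agent.N113 (PR)

lemma eval_dom {σ : Type} {P : σ → Prop} [DecidablePred P] {nx : σ → σ} (c : σ) :
    (eval (fun c => if P c then none else some (nx c)) c).Dom ↔ ∃ n, P (nx^[n] c) := by
  constructor
  · intro h
    obtain ⟨b, hb⟩ := Part.dom_iff_mem.1 h
    obtain ⟨h1, h2⟩ := mem_eval.1 hb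
    have : ∃ n, b = nx^[n] c := by
      clear h2 hb
      induction h1 with
      | refl => exact ⟨0, rfl⟩
      | tail _ hs ih =>
        obtain ⟨n, rfl⟩ := ih
        refine ⟨n + 1, ?_⟩
        rw [Function.iterate_succ_apply']
        dsimp only at hs
        split_ifs at hs <;> simp_all
    obtain ⟨n, rfl⟩ := this
    exact ⟨n, by simpa using h2⟩
  · rintro ⟨n, hn⟩
    induction n generalizing c with
    | zero => exact Part.dom_iff_mem.2 ⟨c, mem_eval.2 ⟨Relation.ReflTransGen.refl, if_pos hn⟩⟩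
    | succ n ih =>
      by_cases h : P c
      · exact Part.dom_iff_mem.2 ⟨c, mem_eval.2 ⟨Relation.ReflTransGen.refl, if_pos h⟩⟩
      · rw [reaches_eval (b := nx c) (Relation.ReflTransGen.single (by simp [h]))]
        exact ih _ hn

/-- The table entry used on two stacks. -/
def ent (M : TM) (g : ℕ × List ℕ × List ℕ) : ℕ × ℕ × Option Bool :=
  (M.2.lookup (g.1, g.2.2.headD 0)).getD (g.1, g.2.2.headD 0, none)

/-- One step on two stacks. -/
def lstep (M : TM) (g : ℕ × List ℕ × List ℕ) : ℕ × List ℕ × List ℕ :=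
  if (ent M g).2.2 = none then ((ent M g).1, g.2.1, (ent M g).2.1 :: g.2.2.tail)
  else if (ent M g).2.2 = some true then ((ent M g).1, (ent M g).2.1 :: g.2.1, g.2.2.tail)
  else ((ent M g).1, g.2.1.tail, g.2.1.headD 0 :: (ent M g).2.1 :: g.2.2.tail)

theorem halts_iff (M : TM) (w : List ℕ) :
    M.Halts w ↔ ∃ n, ((lstep M)^[n] (0, [], w)).1 ∈ M.1 := by
  refine (eval_dom (P := fun c : ℕ × Tape ℕ => c.1 ∈ M.1) _).trans (exists_congr fun n => ?_)
  refine iff_of_eq (congrArg (fun c : ℕ × Tape ℕ => c.1 ∈ M.1) (Function.Semiconj.iterate_right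
    (f := fun g : ℕ × List ℕ × List ℕ => (g.1, Tape.mk₂ g.2.1 g.2.2)) (ga := lstep M) ?_ n
      (0, [], w)).symm)
  rintro ⟨q, L, R⟩
  have e : ∀ l : List ℕ, l.headI = l.headD 0 := fun l => by cases l <;> rfl
  have h : (Tape.mk₂ L R).head = R.headD 0 := e R
  rcases hl : M.2.lookup (q, R.headD 0) with _ | ⟨q', b, _ | _ | _⟩ <;>
    simp only [lstep, ent, h, hl, Option.getD]
  · cases R <;> simp [Tape.mk₂, Tape.mk']
  all_goals simp [Tape.mk₂, Tape.mk', Tape.write, Tape.move, e]

set_option synthInstance.maxSize 1024 in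
theorem primrec_seen : Primrec₂ fun (z : TM × List ℕ) (n : ℕ) =>
    decide (((lstep z.1)^[n] (0, [], z.2)).1 ∈ z.1.1) := by
  have he : PR fun p : TM × ℕ × List ℕ × List ℕ => ent p.1 p.2 := by
    have h1 : PR fun p : TM × ℕ × List ℕ × List ℕ => (p.2.1, p.2.2.2.headD 0) := by fun_prop
    have h2 : PR fun p : TM × ℕ × List ℕ × List ℕ => (p.2.1, p.2.2.2.headD 0, (none : Option Bool)) := by
      fun_prop
    refine ⟨(Primrec.option_getD.comp (Primrec.listLookup.comp h1.out
      (Primrec.snd.comp Primrec.fst)) h2.out).of_eq fun p => ?_⟩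
    unfold ent
    congr
    exact lawful_beq_subsingleton _ _
  have hs : Primrec fun p : TM × ℕ × List ℕ × List ℕ => lstep p.1 p.2 := by
    have h3 := (PR.snd (PR.snd he)).out
    refine Primrec.ite (Primrec.eq.comp h3 (Primrec.const _)) (PR.out (by fun_prop))
      (Primrec.ite (Primrec.eq.comp h3 (Primrec.const _)) (PR.out (by fun_prop))
        (PR.out (by fun_prop)))
  have h1 : Primrec fun p : (TM × List ℕ) × ℕ => (lstep p.1.1)^[p.2] (0, [], p.1.2) :=
    Primrec.nat_iterate (h := fun p : (TM × List ℕ) × ℕ => lstep p.1.1) Primrec.snd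
      (PR.out (by fun_prop)) (hs.comp (PR.out (by fun_prop) :
        Primrec fun q : ((TM × List ℕ) × ℕ) × ℕ × List ℕ × List ℕ => (q.1.1.1, q.2)))
  refine PrimrecRel.decide (((Primrec.eq.exists_mem_list).comp
    (Primrec.fst.comp (Primrec.fst.comp Primrec.fst)) (Primrec.fst.comp h1)).of_eq fun p => ?_)
  simp

/-- One machine `U` and a computable encoding of the pairs `(M, w)` as words of `U`. -/
theorem univ : ∃ (U : N113.Machine) (e : TM × List ℕ → List ℕ), Computable e ∧
    ∀ z, ∃ v : List (Fin U.nG), v.map Fin.val = e z ∧ (U.HaltsOn v ↔ z.1.Halts z.2) := by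
  have hs : Computable₂ fun (n t : ℕ) => ((Encodable.decode n : Option (TM × List ℕ)).map fun z =>
      decide (((lstep z.1)^[t] (0, [], z.2)).1 ∈ z.1.1)).getD false := by
    refine Primrec₂.to_comp ?_
    exact Primrec.option_getD.comp
      (Primrec.option_map (Primrec.decode.comp Primrec.fst)
        (primrec_seen.comp Primrec.snd (Primrec.snd.comp Primrec.fst)).to₂) (Primrec.const false)
  obtain ⟨U, a, b, hU⟩ := N113.Univ.exists_of_partrec (Partrec.rfind hs.partrec₂)
  refine ⟨U, fun x => (a : ℕ) :: List.replicate (Encodable.encode x) (b : ℕ),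
    (N113.Univ.computable_word a b).comp Computable.encode, fun z =>
      ⟨a :: List.replicate (Encodable.encode z) b, by simp, ?_⟩⟩
  rw [hU, halts_iff, Nat.rfind_dom]
  simp

end Vale.Agent.N113P
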