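import Vale.Agent.N113P.Calc
import Vale.Agent.N113P.Mach
import Vale.Agent.N113.StMain

/-!
# P113: planar flows, in every dimension `d ≥ 2`
-/

open Set

namespace Vale.Agent.N113P

open Vale.Agent.N113 (kappa PR kappa_pos slot IsTrajectory Machine)
open Vale.Agent.N113.St (steady ut V Piece steady_sty V_low frac_of_le frac_of_ge posS ptS progM)
open Vale.Agent.N113.Traj (frac hasDerivAt_frac frac_mem)
open Matrix (vecCons)

variable {n : ℕ} {ν : ℝ} {L : ℕ → List Piece}

lemma sv_three (l : List (Term 3)) (t : ℝ) (x : E 3) :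
    sv ν l (t, x) = N113.sumTerms ν l t (N113.proj x.ofLp) := by
  refine congrArg List.sum (List.map_congr_left fun τ _ => ?_)
  simp only [val_eq, N113.Term.eval, N113.proj, N113.per_rep]
  rfl

/-- The spatially constant term `q g(t) / κ`. -/
def cT {d : ℕ} (g : Bump) (q : ℚ) : Term d := ((q, 0, -1, []), ([g], []), fun _ => [])

lemma val_cT {d : ℕ} (g : Bump) (q : ℚ) (t : ℝ) (x : E d) :
    (cT g q).val ν t x = q / kappa * N113.Bump.eval g t := by
  simp [val_eq, cT, cf, tp, pp, div_eq_mul_inv]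

lemma inv_cT {d : ℕ} {T : ℚ} {g : Bump} (h : N113.Bump.WF g) (h' : End T g) (q : ℚ) :
    Inv T (cT (d := d) g q) :=
  ⟨⟨by simp [cT], by simpa [cT] using h, by simp [cT], by simp [cT]⟩,
    Or.inr ⟨g, List.mem_cons_self, h'⟩⟩

/-- The third coordinate of a steady term is read as time. -/
def lift (τ : Term 3) : Term (n + 2) :=
  (τ.1, ([], τ.2.2 2), vecCons (τ.2.2 0) (vecCons (τ.2.2 1) fun _ => []))

lemma sv_lift (hL : ∀ j, ∀ p ∈ L j, p.2.1 ≠ 0) {i : Fin 3} (hi : i ≠ 2) (t : ℝ) (x : E (n + 2)) :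
    sv ν ((steady L i).map lift) (t, x) = ut L i t (N113.proj ![x 0, x 1, 0]) := by
  have e : Function.update (N113.proj ![x 0, x 1, 0]) 2 (t : UnitAddCircle)
      = N113.proj (WithLp.toLp 2 ![x 0, x 1, t]).ofLp := by
    funext j
    fin_cases j <;> rfl
  rw [ut, if_neg hi, e, ← N113.St.sum_steady L ν 0, ← sv_three, sv, sv, List.map_map]
  refine congrArg List.sum (List.map_congr_left fun τ hτ => ?_)
  simp [val_eq, lift, (steady_sty hL i τ hτ).2.1, tp, pp, Fin.prod_univ_succ]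
  ring

/-- The planar velocity. -/
def velP (L : ℕ → List Piece) (z : ℚ × ℚ) : Fin (n + 2) → List (Term (n + 2)) :=
  vecCons (cT (slot 0) (16 * z.1) :: (steady L 0).map lift)
    (vecCons (cT (slot 0) (16 * z.2) :: (steady L 1).map lift) fun _ => [])

lemma velP_spec (hL : ∀ j, ∀ p ∈ L j, p.2.1 ≠ 0) (z : ℚ × ℚ) (i : Fin (n + 2)) :
    ∀ τ ∈ velP L z i, Inv 1 τ ∧ τ.2.2 i = [] := by
  have h1 : ∀ j, ∀ τ ∈ steady L j, Inv 1 (lift τ : Term (n + 2)) := fun j τ hτ => by
    obtain ⟨⟨a, -, -, b⟩, -⟩ := steady_sty hL j τ hτ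
    refine ⟨⟨a, by simp [lift], b 2, fun i => ?_⟩, Or.inl rfl⟩
    refine Fin.cases (b 0) (fun i => Fin.cases (b 1) (fun i => ?_) i) i
    simp [lift]
  have h2 := inv_cT (d := n + 2) (T := 1) (N113.FC.slot_wf 0) (by norm_num [End, slot])
  refine Fin.cases ?_ (fun i => Fin.cases ?_ (fun i => by simp [velP]) i) i
  all_goals
    intro τ hτ
    rcases List.mem_cons.1 hτ with rfl | h
    · exact ⟨h2 _, rfl⟩
    · obtain ⟨σ, hσ, rfl⟩ := List.mem_map.1 h
      exact ⟨h1 _ σ hσ, (steady_sty hL _ σ hσ).2.2.1⟩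

lemma velP_curve (hL : ∀ j, ∀ p ∈ L j, p.2.1 ≠ 0) (h0 : L 0 = []) (z : ℚ × ℚ) {X : ℝ → E (n + 2)}
    {Y : ℝ → N113.R3} (e : ∀ t, Y t = ![X t 0 + (1 - frac 0 t) * z.1, X t 1 + (1 - frac 0 t) * z.2, 0])
    {t : ℝ} (ht : 0 ≤ t) :
    HasDerivWithinAt X (force ν (velP L z) t (X t)) (Ici 0) t ↔
      HasDerivWithinAt Y (fun i => ut L i t (N113.proj (Y t))) (Ici 0) t ∧
        ∀ i : Fin n, HasDerivWithinAt (fun s => X s i.succ.succ) 0 (Ici 0) t := by
  have key : ∀ i, ut L i t (N113.proj (Y t)) = ut L i t (N113.proj ![X t 0, X t 1, 0]) := by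
    intro i
    rcases le_total t (1 / 8) with h | h
    · unfold ut
      split_ifs with hi
      · rfl
      · rw [V_low h0 ⟨ht, h⟩ (by simp) hi, V_low h0 ⟨ht, h⟩ (by simp) hi]
    · simp [e, frac_of_ge 0 (show ((0 : ℕ) + 1 : ℝ) / 8 ≤ t by simpa using h)]
  have d : ∀ (c : ℚ) (g : ℝ → ℝ) (w : ℝ),
      HasDerivWithinAt g ((16 * c : ℚ) / kappa * N113.Bump.eval (slot 0) t + w) (Ici 0) t ↔
        HasDerivWithinAt (fun s => g s + (1 - frac 0 s) * c) w (Ici 0) t := by
    intro c g w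
    have h := (((hasDerivAt_frac 0 t).const_sub 1).mul_const (c : ℝ)).hasDerivWithinAt (s := Ici 0)
    refine ⟨fun hg => (hg.fun_add h).congr_deriv ?_, fun hg => ?_⟩
    · simp [slot, N113.Bump.eval]
      ring
    · refine ((hg.fun_sub h).congr_deriv ?_).congr (fun _ _ => by ring) (by ring)
      simp [slot, N113.Bump.eval]
      ring
  have f0 : force ν (velP L z) t (X t) 0 = _ := (sv_cons _ _ (t, X t)).trans
    (congrArg₂ _ (val_cT _ _ _ _) (sv_lift hL (by decide) _ _))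
  have f1 : force ν (velP L z) t (X t) (Fin.succ 0) = _ := (sv_cons _ _ (t, X t)).trans
    (congrArg₂ _ (val_cT _ _ _ _) (sv_lift hL (by decide) _ _))
  rw [hasDerivWithinAt_E, hasDerivWithinAt_pi, Fin.forall_fin_succ, Fin.forall_fin_succ,
    Fin.forall_fin_succ, Fin.forall_fin_two, f0, f1, d, d, ← and_assoc]
  simp only [key]
  simp only [e]
  exact and_congr (and_congr_right' (and_iff_left (hasDerivWithinAt_const _ _ _)).symm) Iff.rfl

/-- Lower corner of the box. -/
def loP : Fin (n + 2) → ℚ := vecCons (-1 / 8) (vecCons (5 / 8) fun _ => -1 / 8)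

/-- Upper corner of the box. -/
def hiP : Fin (n + 2) → ℚ := vecCons (3 / 8) (vecCons (7 / 8) fun _ => 3 / 8)

/-- The point that codes the input. -/
def ptU (U : Machine) (w : List ℕ) : ℚ × ℚ :=
  ((N113.St.start U.code w).1 / (4 * N113.St.aa U.code),
    (N113.St.start U.code w).2 / (4 * N113.St.aa U.code))

lemma prog_ne (U : Machine) : ∀ j, ∀ p ∈ progM U.code j, p.2.1 ≠ 0 :=
  N113.St.prog_ne (N113.St.nn_pos U) (by unfold N113.St.aa; omega) _ _ _ _

theorem planar_detects (hν : 0 ≤ ν) (U : Machine) (v : List (Fin U.nG)) :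
    Detects ν (force ν (nsOf (velP (n := n) (progM U.code) (ptU U (v.map Fin.val)))))
      (force ν (velP (progM U.code) (ptU U (v.map Fin.val)))) 0 loP hiP (U.HaltsOn v) := by
  set z := ptU U (v.map Fin.val)
  have hL := prog_ne U
  have h0 : progM U.code 0 = [] := rfl
  have G := N113.St.good U
  obtain ⟨⟨Y, hY0, hY⟩, hall⟩ := N113.St.planar h0 ![z.1, z.2, 0]
  have f0 : frac 0 0 = 0 := frac_of_le 0 (by simp)
  refine detects_nsOf hν (fun i τ hτ => (velP_spec hL z i τ hτ).1.1)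
    (fun i τ hτ => (velP_spec hL z i τ hτ).2) ?_ ?_ fun X hX0 hX => ?_
  · funext x
    ext i
    refine Fin.cases ?_ (fun i => Fin.cases ?_ (fun i => rfl) i) i
    all_goals
      refine (sv_cons _ _ (0, x)).trans
        ((congrArg₂ _ (val_cT _ _ _ _) (sv_lift hL (by decide) _ _)).trans ?_)
      rw [ut, if_neg (by decide), V_low h0 (s := 0) (by norm_num) (by simp) (by decide)]
      simp [slot, N113.Bump.eval, N113.rho_eq_zero]
  · have h2 : ∀ t, 0 ≤ t → Y t 2 = 0 := fun t ht => by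
      have := N113.Traj.const_of_deriv_zero (f := fun s => Y s 2) (a := 0) (b := t) (fun s hs =>
        (hasDerivWithinAt_pi.1 (hY s hs.1) 2).mono Icc_subset_Ici_self) t ⟨ht, le_rfl⟩
      simpa [hY0] using this
    refine ⟨fun t => WithLp.toLp 2 (vecCons (Y t 0 - (1 - frac 0 t) * z.1)
      (vecCons (Y t 1 - (1 - frac 0 t) * z.2) fun _ => 0)), fun i => ?_, fun t ht =>
        (velP_curve hL h0 z (Y := fun t => ![Y t 0, Y t 1, 0]) (fun t => by simp) ht).2
          ⟨?_, fun i => hasDerivWithinAt_const _ _ _⟩⟩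
    · refine Fin.cases ?_ (fun i => Fin.cases ?_ (fun i => by simp) i) i <;> simp [hY0, f0]
    · have e : ∀ s ∈ Ici (0 : ℝ), ![Y s 0, Y s 1, 0] = Y s := fun s hs => by
        funext j
        fin_cases j
        exacts [rfl, rfl, (h2 s hs).symm]
      simp only [e t ht]
      exact (hY t ht).congr e (e t ht)
  have hc := fun t (ht : 0 ≤ t) => (velP_curve hL h0 z (fun _ => rfl) ht).1 (hX t ht)
  have h4 := hall _ ⟨by simp [hX0, f0], fun t ht => (hc t ht).1⟩
  constructor
  · rintro ⟨t, ht, m, hm⟩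
    by_contra hnh
    obtain ⟨S, hS0, hS⟩ := N113.St.sim_not_halts U v hnh
    have l0 : ∀ k, posS (progM U.code) ![z.1, z.2, 0] k 1 ∈ Icc (0 : ℝ) (1 / 2) :=
      N113.St.pos_low G hS0 hS
    have h5 : X t 1 ∈ Icc (0 : ℝ) (1 / 2) := by
      have hf := frac_mem 0 t
      rcases le_total t (1 / 8) with h | h
      · obtain ⟨θ, -, e⟩ := (h4 0).2 t ⟨by simpa using ht, by simpa using h⟩
        have e1 := congrFun e 1
        have l1 := l0 0
        rw [show posS (progM U.code) ![z.1, z.2, 0] 0 1 = z.2 from rfl] at l1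
        simp [posS, N113.St.HS, h0, N113.St.Hf] at e1
        constructor <;> nlinarith [hf.1, hf.2, l1.1, l1.2]
      · obtain ⟨k, hk⟩ := N113.exists_slot ht
        obtain ⟨θ, hθ, e⟩ := (h4 k).2 _ hk
        have e1 := congrFun e 1
        have l1 := l0 k
        have l2 := l0 (k + 1)
        simp [frac_of_ge 0 (show ((0 : ℕ) + 1 : ℝ) / 8 ≤ t by simpa using h)] at e1
        constructor <;> nlinarith [l1.1, l1.2, l2.1, l2.2, hθ.1, hθ.2]
    have h6 := hm 1
    simp [loP, hiP] at h6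
    have h7 : (0 : ℝ) < m 1 := by linarith [h5.2, h6.1]
    have h8 : (m 1 : ℝ) < 1 := by linarith [h5.1, h6.2]
    norm_cast at h7 h8
    omega
  · intro hh
    obtain ⟨y, hy, hH⟩ := N113.St.sim_halts U v hh
    obtain ⟨m, hm⟩ := N113.St.pos_reach G hy
    obtain ⟨a, b, ⟨a0, a1⟩, ⟨b0, b1⟩, e⟩ := N113.St.pos_halt G m hH hm
    have e' := (h4 (8 * m + 2)).1.trans e
    have hm0 : (0 : ℝ) ≤ m := Nat.cast_nonneg m
    have ht : (0 : ℝ) ≤ ((8 * m + 2 : ℕ) : ℝ) / 8 := by positivity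
    rw [frac_of_ge 0 (by push_cast; linarith)] at e'
    have e0 := congrFun e' 0
    have e1 := congrFun e' 1
    have a0' : (0 : ℝ) ≤ a := by exact_mod_cast a0
    have b0' : (0 : ℝ) ≤ b := by exact_mod_cast b0
    have a1' : (a : ℝ) ≤ (1 / 32 : ℚ) := by exact_mod_cast a1
    have b1' : (b : ℝ) ≤ (1 / 32 : ℚ) := by exact_mod_cast b1
    refine ⟨_, ht, 0, fun i => Fin.cases ?_ (fun i => Fin.cases ?_ (fun i => ?_) i) i⟩
    · simp [loP, hiP] at e0 a1' ⊢
      constructor <;> linarith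
    · simp [loP, hiP] at e1 b1' ⊢
      constructor <;> linarith
    · rw [N113.Traj.const_of_deriv_zero (f := fun s => X s i.succ.succ) (a := 0)
        (fun s hs => ((hc s hs.1).2 i).mono Icc_subset_Ici_self) _ ⟨ht, le_rfl⟩, hX0]
      norm_num [loP, hiP]

lemma computable_ptU (U : Machine) {e : TM × List ℕ → List ℕ} (he : Computable e) :
    Computable fun z => ptU U (e z) := by
  have h : PR fun w => N113.St.start U.code w := N113.St.pr_start (PR.const _) PR.id'
  exact (PR.pair (PR.qdiv (PR.fst h) (PR.const _)) (PR.qdiv (PR.snd h) (PR.const _))).out.to_comp.comp he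

set_option synthInstance.maxSize 1024 in
theorem planar (n : ℕ) (hν : 0 ≤ ν) :
    ∃ (a lo hi : Fin (n + 2) → ℚ) (C : TM × List ℕ → Fin (n + 2) → List (Term (n + 2))),
      (∀ i, lo i < hi i) ∧ Compiler ν C ∧
        ∀ M w, ∃ u, Detects ν (force ν (C (M, w))) u a lo hi (M.Halts w) := by
  obtain ⟨U, e, he, hU⟩ := univ
  refine ⟨0, loP, hiP, fun z => nsOf (velP (progM U.code) (ptU U (e z))), fun i => ?_,
    compiler_nsOf ν (fun i => ?_) (fun z i τ hτ => (velP_spec (prog_ne U) z i τ hτ).1)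
      (fun z z' i => ?_) (computable_ptU U he), fun M w => ?_⟩
  · refine Fin.cases ?_ (fun i => Fin.cases ?_ (fun i => ?_) i) i <;> norm_num [loP, hiP]
  · refine Fin.cases ?_ (fun i => Fin.cases ?_ (fun i => PR.const _) i) i
    all_goals
      refine PR.cons ?_ (PR.const _)
      unfold cT
      fun_prop
  · refine Fin.cases ?_ (fun i => Fin.cases ?_ (fun i => rfl) i) i <;> simp [fp, velP, cT]
  · obtain ⟨v, hv, hh⟩ := hU (M, w)
    exact ⟨_, by simpa only [hv, hh] using planar_detects hν U v⟩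

end Vale.Agent.N113P
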