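import Vale.Agent.N113P.Planar

/-!
# P113: slow flows on `𝕋³`: small forces and a globally attracting solution
-/

open Set
open scoped ContDiff

namespace Vale.Agent.N113P

open Vale.Agent.N113 (kappa PR kappa_pos slot IsTrajectory Machine)
open Vale.Agent.N113.St (steady V Piece steady_sty frac_of_le progM load)
open Vale.Agent.N113.Traj (frac)

variable {ν : ℝ} {L : ℕ → List Piece} {ε : ℚ}

/-- The velocity `ε u(ε t, x)`. -/
def velE (L : ℕ → List Piece) (ε : ℚ) (z : ℚ × ℚ) (i : Fin 3) : List (Term 3) :=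
  ![[cT (.inl (0, 0, 16 * ε, 1)) (16 * ε * z.1)], [cT (.inl (0, 0, 16 * ε, 3)) (16 * ε * z.2)], []] i
    ++ ((steady L i).map (mulT (cT (.inr (0, 6, 16 * ε, -1)) (-ε))) ++
      (steady L i).map (mulT ((ε, 0, 0, []), ([], []), fun _ => [])))

/-- The velocity divided by `ε`. -/
noncomputable def W (ν : ℝ) (L : ℕ → List Piece) (ε : ℚ) (z : ℚ × ℚ) (i : Fin 3) (y : ℝ × E 3) : ℝ :=
  load z.1 z.2 (ε * y.1) i +
    (1 - kappa⁻¹ * tp [.inr (0, 6, 16, -1)] (ε * y.1)) * sv ν (steady L i) y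

lemma sv_velE (z : ℚ × ℚ) (i : Fin 3) (y : ℝ × E 3) :
    sv ν (velE L ε z i) y = ε * W ν L ε z i y := by
  have e : ∀ a : ℝ, 16 * a * y.1 = 16 * (a * y.1) := fun a => mul_assoc _ _ _
  simp only [velE, sv_append, sv_mulT, val_cT, W]
  fin_cases i <;> simp [sv_cons, sv_nil, cT, val_eq, cf, tp, pp, N113.Bump.eval, load, e] <;>
    norm_num <;> ring

lemma velE_spec (hL : ∀ j, ∀ p ∈ L j, p.2.1 ≠ 0) (hε : 0 < ε) (z : ℚ × ℚ) (i : Fin 3) :
    ∀ τ ∈ velE L ε z i, Inv ε⁻¹ τ ∧ τ.2.2 i = [] := by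
  have e : 16 * ε * ε⁻¹ = 16 := by field_simp
  have h1 : ∀ τ ∈ steady L i, Inv ε⁻¹ (τ : Term 3) := fun τ hτ =>
    ⟨(steady_sty hL i τ hτ).1, Or.inl (by rw [(steady_sty hL i τ hτ).2.1])⟩
  intro τ hτ
  simp only [velE, List.mem_append, List.mem_map] at hτ
  rcases hτ with h | ⟨σ, h, rfl⟩ | ⟨σ, h, rfl⟩
  · fin_cases i <;> simp at h <;> subst h <;>
      exact ⟨inv_cT (by simpa [N113.Bump.WF] using hε.ne') (by norm_num [End, e, hε]) _, rfl⟩
  · exact ⟨(inv_cT (by simpa [N113.Bump.WF] using hε.ne') (by norm_num [End, e, hε]) _).mul (h1 σ h),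
      (steady_sty hL i σ h).2.2.1⟩
  · exact ⟨Inv.mul ⟨⟨by simp, by simp, by simp, by simp⟩, Or.inl rfl⟩ (h1 σ h),
      (steady_sty hL i σ h).2.2.1⟩

lemma force_velE (hε : 0 < ε) (z : ℚ × ℚ) {t : ℝ} (ht : 0 ≤ t) (x : E 3) (i : Fin 3) :
    force ν (velE L ε z) t x i
      = ε * N113.sumTerms 0 (N113.St.velS L z.1 z.2 i) (ε * t) (N113.proj x.ofLp) := by
  have h : (0 : ℝ) ≤ ε * t := by positivity
  refine (sv_velE z i (t, x)).trans ?_
  rw [N113.St.sum_velS _ _ _ _ h, W, sv_three, N113.St.sum_steady]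
  have := kappa_pos.ne'
  simp only [tp, N113.Bump.eval, N113.plateau, frac, List.map_cons, List.map_nil, List.prod_cons,
    List.prod_nil]
  push_cast
  rw [N113.sigma_of_ge (s := 16 * (ε * t) - -1) (by linarith),
    show 16 * (ε * t) - -1 - 6 = 16 * (ε * t) - (2 * 2 + 1) by ring]
  field_simp
  ring

lemma mem_box {lo hi : Fin 3 → ℚ} {x : N113.R3} : N113.proj x ∈ N113.boxImage lo hi ↔
    ∃ m : Fin 3 → ℤ, ∀ i, x i + m i ∈ Ioo (lo i : ℝ) (hi i) := by
  constructor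
  · rintro ⟨y, hy, e⟩
    have h1 : ∀ i, ∃ m : ℤ, y i = x i + m := fun i => by
      obtain ⟨m, hm⟩ := AddSubgroup.mem_zmultiples_iff.1 (QuotientAddGroup.eq.1 (congrFun e i).symm)
      exact ⟨m, by rw [zsmul_eq_mul, mul_one] at hm; linarith⟩
    choose m hm using h1
    exact ⟨m, fun i => hm i ▸ hy i⟩
  · rintro ⟨m, hm⟩
    refine ⟨fun i => x i + m i, hm, funext fun i => ?_⟩
    exact (QuotientAddGroup.eq.2 (AddSubgroup.mem_zmultiples_iff.2 ⟨m i, by simp⟩)).symm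

theorem slow_detects (hν : 0 ≤ ν) (hε : 0 < ε) (U : Machine) (v : List (Fin U.nG)) :
    Detects ν (force ν (nsOf (velE (progM U.code) ε (ptU U (v.map Fin.val)))))
      (force ν (velE (progM U.code) ε (ptU U (v.map Fin.val)))) 0 N113.St.lo N113.St.hi
      (U.HaltsOn v) := by
  set z := ptU U (v.map Fin.val)
  have hε' : (0 : ℝ) < ε := by exact_mod_cast hε
  obtain ⟨⟨Y, hY0, hY⟩, hall⟩ := N113.St.detect U v
  refine detects_nsOf hν (fun i τ hτ => (velE_spec (prog_ne U) hε z i τ hτ).1.1)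
    (fun i τ hτ => (velE_spec (prog_ne U) hε z i τ hτ).2) ?_ ?_ fun X hX0 hX => ?_
  · funext x
    ext i
    rw [force_velE hε z le_rfl, mul_zero, N113.St.sum_velS _ _ _ _ le_rfl, N113.St.load_zero,
      frac_of_le 2 (by norm_num)]
    simp
  · refine ⟨fun t => WithLp.toLp 2 (Y (ε * t)), fun i => by simp [hY0],
      fun t ht => hasDerivWithinAt_E.2 fun i => ?_⟩
    rw [force_velE hε z ht, mul_comm]
    exact (hasDerivWithinAt_pi.1 (hY _ (mul_nonneg hε'.le ht)) i).comp t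
      (by simpa using ((hasDerivAt_id t).const_mul (ε : ℝ)).hasDerivWithinAt)
      fun s hs => mul_nonneg hε'.le hs
  have := hall (fun s => (X (s / ε)).ofLp) ⟨funext fun i => by simpa using hX0 i, fun s hs =>
    hasDerivWithinAt_pi.2 fun i => ?_⟩
  · rw [← this]
    simp only [mem_box]
    exact ⟨fun ⟨t, ht, h⟩ => ⟨ε * t, by positivity, by rwa [mul_div_cancel_left₀ _ hε'.ne']⟩,
      fun ⟨s, hs, h⟩ => ⟨s / ε, by positivity, h⟩⟩
  · have h1 := (hasDerivWithinAt_E.1 (hX _ (div_nonneg hs hε'.le)) i).comp s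
      ((hasDerivAt_id s).div_const (ε : ℝ)).hasDerivWithinAt
      (show MapsTo _ (Ici 0) (Ici 0) from fun r hr => div_nonneg hr hε'.le)
    refine h1.congr_deriv ?_
    rw [force_velE hε z (div_nonneg hs hε'.le), mul_div_cancel₀ _ hε'.ne']
    field_simp
    rfl

lemma ub_W (hL : ∀ j, ∀ p ∈ L j, p.2.1 ≠ 0) {ι : Type} {ε : ι → ℚ} {z : ι → ℚ × ℚ}
    (h : ∀ a, |(ε a : ℝ)| ≤ 1 ∧ |((z a).1 : ℝ)| ≤ 1 ∧ |((z a).2 : ℝ)| ≤ 1) (i : Fin 3) :
    UB fun a => W ν L (ε a) (z a) i := by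
  have f : ∀ g : Bump, N113.Bump.WF g → UB fun a (y : ℝ × E 3) => tp [g] (ε a * y.1) := fun g hg =>
    (ub_tp (by simpa using hg)).comp (L := fun a => (ε a : ℝ) • ContinuousLinearMap.fst ℝ ℝ (E 3))
      fun a => (norm_smul_le _ _).trans (mul_le_one₀ (h a).1 (norm_nonneg _)
        (ContinuousLinearMap.norm_fst_le ℝ ℝ (E 3)))
  refine UB.add ?_ (UB.mul ?_ (ub_sv fun τ hτ => (steady_sty hL i τ hτ).1))
  · fin_cases i
    · simpa [tp, slot, N113.Bump.eval, load] using ((UB.const' (16 / kappa)).mul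
        (f _ (N113.FC.slot_wf 0))).mul (UB.const fun a => (h a).2.1)
    · simpa [tp, slot, N113.Bump.eval, load] using ((UB.const' (16 / kappa)).mul
        (f _ (N113.FC.slot_wf 1))).mul (UB.const fun a => (h a).2.2)
    · exact UB.const' 0
  · simpa only [sub_eq_add_neg, neg_mul] using
      (UB.const' 1).add ((UB.const' (-kappa⁻¹)).mul (f _ (by norm_num [N113.Bump.WF])))

lemma dv_const_mul {d : ℕ} {G : ℝ × E d → ℝ} (hG : ContDiff ℝ ∞ G) (c : ℝ) (w : ℝ × E d) :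
    dv w (fun y => c * G y) = fun y => c * dv w G y := funext fun y => by
  simp [dv, fderiv_const_mul (hG.differentiable (by simp) y)]

set_option synthInstance.maxSize 1024 in
theorem slow (hν : 0 < ν) {δ : ℝ} (hδ : 0 < δ) (k : ℕ) :
    ∃ (a lo hi : Fin 3 → ℚ) (C : TM × List ℕ → Fin 3 → List (Term 3)),
      (∀ i, lo i < hi i) ∧ Compiler ν C ∧ ∀ M w, ∃ u,
        Detects ν (force ν (C (M, w))) u a lo hi (M.Halts w) ∧
        (∀ j ≤ k, ∀ z, ‖iteratedFDeriv ℝ j (force ν (C (M, w))).uncurry z‖ ≤ δ) ∧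
        ∀ T v q, Solves ν (force ν (C (M, w))) T v q → ∫ x in cube 3, v 0 x = 0 → ∀ t ∈ Icc 0 T,
          ∫ x in cube 3, ‖v t x - u t x‖ ^ 2 ≤ Real.exp (-ν * t) * ∫ x in cube 3, ‖v 0 x‖ ^ 2 := by
  obtain ⟨U, e, he, hU⟩ := univ
  have hL := prog_ne U
  have hb : ∀ a : Ioc (0 : ℚ) 1 × TM × List ℕ, |(a.1.1 : ℝ)| ≤ 1 ∧
      |((ptU U (e a.2)).1 : ℝ)| ≤ 1 ∧ |((ptU U (e a.2)).2 : ℝ)| ≤ 1 := by
    rintro ⟨⟨ε, h0, h1⟩, z⟩
    obtain ⟨v, hv, -⟩ := hU z
    obtain ⟨a0, a1, b0, b1⟩ := N113.St.start_mem U v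
    have s1 := N113.St.small (N113.St.good U) ⟨a0, a1⟩
    have s2 := N113.St.small (N113.St.good U) ⟨b0, b1⟩
    rw [hv] at s1 s2
    norm_cast
    exact ⟨abs_le.2 ⟨by linarith, h1⟩, abs_le.2 ⟨le_trans (by norm_num) s1.1, s1.2.trans (by norm_num)⟩,
      abs_le.2 ⟨le_trans (by norm_num) s2.1, s2.2.trans (by norm_num)⟩⟩
  have hW := ub_W (ν := ν) hL hb
  have hΦ := UB.vec fun i => ((hW i).dv (1, 0)).add (((UB.const fun a => (hb a).1).mul
    (UB.sum (fun j => (hW j).mul ((hW i).dv (0, ev j))) Finset.univ)).add ((UB.const' (-ν)).mul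
      (UB.sum (fun j => ((hW i).dv (0, ev j)).dv (0, ev j)) Finset.univ)))
  choose C hC using hΦ.2
  obtain ⟨C₀, hC₀⟩ := Finite.exists_le fun j : Fin (k + 1) => C j
  choose D hD using fun p : Fin 3 × Fin 3 => ((hW p.1).dv (0, ev p.2)).2 0
  obtain ⟨D₀, hD₀⟩ := Finite.exists_le D
  obtain ⟨ε, h0, h1⟩ := exists_rat_btwn
    (show 0 < min 1 (min (δ / (|C₀| + 1)) (ν / 6 / (|D₀| + 1))) by positivity)
  simp only [lt_min_iff] at h1
  rw [lt_div_iff₀ (by positivity), lt_div_iff₀ (by positivity)] at h1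
  have hε : ε ∈ Ioc (0 : ℚ) 1 := ⟨by exact_mod_cast h0, by exact_mod_cast h1.1.le⟩
  have hs := velE_spec hL hε.1
  refine ⟨0, N113.St.lo, N113.St.hi, fun z => nsOf (velE (progM U.code) ε (ptU U (e z))),
    fun i => ?_, compiler_nsOf ν (fun i => ?_) (fun z i τ hτ => (hs z i τ hτ).1)
      (fun z z' i => ?_) (computable_ptU U he), fun M w => ?_⟩
  · fin_cases i <;> simp [N113.St.lo, N113.St.hi] <;> norm_num
  · refine PR.append (PR.app (PR.vec3 ?_ ?_ (PR.const _)) i) (PR.const _)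
    all_goals
      unfold cT
      fun_prop
  · fin_cases i <;> simp [fp, velE, cT]
  obtain ⟨v, hv, hh⟩ := hU (M, w)
  have sW := fun i => (hW i).1 (⟨ε, hε⟩, M, w)
  have eW : ∀ i, sv ν (velE (progM U.code) ε (ptU U (e (M, w))) i) = _ := fun i =>
    funext (sv_velE _ i)
  have wf := fun i τ hτ => (hs (ptU U (e (M, w))) i τ hτ).1.1
  refine ⟨_, by simpa only [hv, hh] using slow_detects hν.le hε.1 U v, fun j hj y => ?_,
    fun T u q hu hm t ht => Solves.stable hν.le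
      (solves_nsOf ν T wf fun i τ hτ => (hs _ i τ hτ).2) hu (fun s x j i => ?_) ?_ hm ht⟩
  · have h2 := mul_le_mul_of_nonneg_left ((hC j (⟨ε, hε⟩, M, w) y).trans
      ((hC₀ ⟨j, by omega⟩).trans (le_abs_self _))) h0.le
    refine le_trans (le_of_eq ?_) (h2.trans (by linarith [h1.2.1]))
    rw [← norm_smul_of_nonneg h0.le, ← iteratedFDeriv_const_smul_apply
      ((hΦ.1 _).of_le (le_inf j)).contDiffAt, force_nsOf wf]
    congr 2
    funext y
    ext i
    simp only [Function.uncurry, vec, ns, eW, dv_const_mul (sW _), dv_const_mul (dv_smooth (sW _) _),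
      Pi.smul_apply, PiLp.smul_apply, smul_eq_mul, Fin.sum_univ_three]
    ring
  · have h2 := mul_le_mul_of_nonneg_left ((hD (i, j) (⟨ε, hε⟩, M, w) (s, x)).trans
      ((hD₀ _).trans (le_abs_self _))) h0.le
    refine le_trans (le_of_eq ?_) (h2.trans (by linarith [h1.2.2]))
    refine (congrArg _ (fderiv_vec (fun i => sv_smooth (wf i)) s x _ i)).trans ?_
    rw [eW, dv_const_mul (sW _), norm_iteratedFDeriv_zero, abs_mul, abs_of_pos h0]
    rfl
  · simpa only [hv] using (slow_detects hν.le hε.1 U v).1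

end Vale.Agent.N113P
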